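import Vale.Agent.P134.ASM.Defs
import Vale.Agent.P134.R3.Phi
import Vale.Agent.P134.H377.CovM
import Vale.Agent.P134.H586.Gw

/-! `StALG`: algebra of `φ = √2 artanh u`. -/

set_option linter.all false

namespace Vale.Agent.P134.H967

open Vale.Agent.P134 Vale.Agent.P134.SM Vale.Agent.P134.LI Vale.Agent.P134.ASM
open MeasureTheory Filter Topology

variable {f : R3 → ℝ} {x : R3}

/-- `|D²f|² = w²|A|² + 2|∇w|² - (∂_ν w)²`. -/
lemma hs_eq (hf : ContDiff ℝ 2 f) (h : 0 < gs f x) :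
    hs f x = wn f x ^ 2 * ∑ i, ∑ j, H377.ag f i j x ^ 2 + 2 * gs (wn f) x
      - (∑ k, pd k (wn f) x * nu f k x) ^ 2 := by
  set μ := ∑ k, pd k (wn f) x * nu f k x with hμ
  have hN : ∑ i, nu f i x ^ 2 = 1 := sum_nu_sq h
  have hM : ∀ i j, pd j (pd i f) x = wn f x * H377.ag f i j x + nu f i x * pd j (wn f) x
      + nu f j x * pd i (wn f) x - nu f i x * nu f j x * μ := by
    intro i j
    have := H377.wn_ag hf h i j
    rw [← hμ] at this
    linarith
  have hT1 : ∀ j, ∑ i, H377.ag f i j x * nu f i x = 0 := by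
    intro j
    have := H377.sum_nu_mul_ag hf h j
    rw [← this]
    exact Finset.sum_congr rfl fun i _ => by ring
  have hT2 : ∀ i, ∑ j, H377.ag f i j x * nu f j x = 0 := by
    intro i
    have := hT1 i
    rw [← this]
    exact Finset.sum_congr rfl fun j _ => by rw [H377.ag_symm hf h]
  have e : hs f x = ∑ i, ∑ j, pd j (pd i f) x ^ 2 := by
    unfold hs
    refine Finset.sum_congr rfl fun i _ => Finset.sum_congr rfl fun j _ => ?_
    rw [pd_comm hf]
  rw [e]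
  simp_rw [hM]
  have a0 := hT1 0
  have a1 := hT1 1
  have a2 := hT1 2
  have b0 := hT2 0
  have b1 := hT2 1
  have b2 := hT2 2
  have hs' := hμ
  unfold gs
  simp only [Fin.sum_univ_three] at *
  set w := wn f x
  set n0 := nu f 0 x
  set n1 := nu f 1 x
  set n2 := nu f 2 x
  set m0 := pd 0 (wn f) x
  set m1 := pd 1 (wn f) x
  set m2 := pd 2 (wn f) x
  set t00 := H377.ag f 0 0 x
  set t01 := H377.ag f 0 1 x
  set t02 := H377.ag f 0 2 x
  set t10 := H377.ag f 1 0 x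
  set t11 := H377.ag f 1 1 x
  set t12 := H377.ag f 1 2 x
  set t20 := H377.ag f 2 0 x
  set t21 := H377.ag f 2 1 x
  set t22 := H377.ag f 2 2 x
  clear_value w n0 n1 n2 m0 m1 m2 t00 t01 t02 t10 t11 t12 t20 t21 t22 μ
  clear hM hT1 hT2 e hμ
  linear_combination (2 * (m0 ^ 2 + m1 ^ 2 + m2 ^ 2) + ((n0 ^ 2 + n1 ^ 2 + n2 ^ 2) + 1) * μ ^ 2
    - 4 * μ * (m0 * n0 + m1 * n1 + m2 * n2)) * hN
    + (2 * (μ - (m0 * n0 + m1 * n1 + m2 * n2))) * hs'
    + 2 * w * m0 * a0 + 2 * w * m1 * a1 + 2 * w * m2 * a2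
    + 2 * w * m0 * b0 + 2 * w * m1 * b1 + 2 * w * m2 * b2
    - 2 * w * μ * (n0 * b0 + n1 * b1 + n2 * b2)

variable {u : R3 → ℝ}

lemma phi_eq_ph (u : R3 → ℝ) : phi u = R3.ph u := rfl
lemma qq_eq_qq (u : R3 → ℝ) : qq u = R3.qq u := rfl

lemma pd_qq (hp : ContDiff ℝ 2 (phi u)) (k : Fin 3) (x : R3) :
    pd k (qq u) x = - (2 * ∑ i, pd i (phi u) x * pd k (pd i (phi u)) x) := by
  have e : qq u = fun y => (1:ℝ) - gs (phi u) y := rfl
  have hd : DifferentiableAt ℝ (gs (phi u)) x :=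
    (H377.contDiff_gs1 hp).differentiable (by norm_num) x
  rw [e, pd_sub (by fun_prop) hd, pd_const, pd_gs hp k x]
  ring

/-- `Σ_i (D²φ Dφ)_i² = |Dq|²/4`. -/
lemma sum_hg_sq (hp : ContDiff ℝ 2 (phi u)) (x : R3) :
    ∑ i, (∑ j, pd i (pd j (phi u)) x * pd j (phi u) x) ^ 2 = gs (qq u) x / 4 := by
  unfold gs
  rw [Finset.sum_div]
  refine Finset.sum_congr rfl fun i _ => ?_
  rw [pd_qq hp]
  have : ∑ j, pd i (pd j (phi u)) x * pd j (phi u) x
      = ∑ j, pd j (phi u) x * pd i (pd j (phi u)) x :=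
    Finset.sum_congr rfl fun j _ => by ring
  rw [this]; ring

lemma qq_c1 (hp : ContDiff ℝ 2 (phi u)) : ContDiff ℝ 1 (qq u) := by
  have e : qq u = fun y => (1:ℝ) - gs (phi u) y := rfl
  rw [e]
  exact contDiff_const.sub (H377.contDiff_gs1 hp)

/-- `|Dq|² = 4 w² |Dw|²` for `w = |Dφ|`. -/
lemma gs_qq_eq (hp : ContDiff ℝ 2 (phi u)) (h : 0 < gs (phi u) x) :
    gs (qq u) x = 4 * rr u x ^ 2 * gs (wn (phi u)) x := by
  unfold gs
  rw [Finset.mul_sum]
  refine Finset.sum_congr rfl fun k _ => ?_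
  have h1 := H377.pd_wn_gen hp h k
  have h2 : ∑ i, pd i (phi u) x * pd k (pd i (phi u)) x
      = rr u x * pd k (wn (phi u)) x := by
    rw [h1, Finset.mul_sum]
    refine Finset.sum_congr rfl fun i _ => ?_
    rw [pd_eq_wn_mul_nu h i]; unfold rr; ring
  rw [pd_qq hp, h2]; ring

lemma rr_sq (u : R3 → ℝ) (x : R3) : rr u x ^ 2 = 1 - qq u x := by
  unfold rr qq; rw [wn_sq]; ring

lemma hs_le (hp : ContDiff ℝ 2 (phi u)) (h1 : gs (phi u) x ≤ 1) (h : 1 / 2 ≤ rr u x) :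
    hs (phi u) x ≤ a2 u x + 2 * gs (qq u) x := by
  have hr : 0 < gs (phi u) x := by
    have : rr u x ^ 2 = gs (phi u) x := wn_sq _ _
    nlinarith
  have e := hs_eq hp hr
  have e1 : ∑ i, ∑ j, H377.ag (phi u) i j x ^ 2 = a2 u x := rfl
  have e2 := gs_qq_eq hp hr
  have e3 : wn (phi u) x ^ 2 = gs (phi u) x := wn_sq _ _
  have e4 : rr u x ^ 2 = gs (phi u) x := wn_sq _ _
  have h3 : 0 ≤ a2 u x := Finset.sum_nonneg fun _ _ => Finset.sum_nonneg fun _ _ => sq_nonneg _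
  have h4 : 0 ≤ gs (wn (phi u)) x := gs_nonneg _ _
  rw [e1, e3] at e
  rw [e4] at e2
  have h5 : 1 / 4 ≤ gs (phi u) x := by rw [← e4]; nlinarith
  have h6 : gs (wn (phi u)) x ≤ gs (qq u) x := by rw [e2]; nlinarith
  have h7 : gs (phi u) x * a2 u x ≤ a2 u x := by nlinarith
  have h8 := sq_nonneg (∑ k, pd k (wn (phi u)) x * nu (phi u) k x)
  linarith

lemma lap_phi (hu : Sol u) (h1 : ∀ x, |u x| < 1) (x : R3) :
    lap (phi u) x = - (Real.sqrt 2 * u x * qq u x) := by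
  have hψ := R3.psi_pos h1
  have hψ0 : ∀ y, psi u y ≠ 0 := fun y => (hψ y).ne'
  have hdψ : Differentiable ℝ (psi u) := hu.psi_contDiff.differentiable (by norm_num)
  have e1 : ∀ i, pd i (pd i (phi u)) x
      = Real.sqrt 2 * (pd i (pd i u) x / psi u x + 2 * u x * pd i u x ^ 2 / psi u x ^ 2) := by
    intro i
    have hd : DifferentiableAt ℝ (pd i u) x := dif_pd hu.c2 i x
    have e : pd i (phi u) = fun y => Real.sqrt 2 * (pd i u y / psi u y) := by
      funext y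
      rw [phi_eq_ph, R3.pd_ph hu h1]
      field_simp
    have hinv : DifferentiableAt ℝ (fun y => (psi u y)⁻¹) x := (hdψ x).inv (hψ0 x)
    have hdq : DifferentiableAt ℝ (fun y => pd i u y / psi u y) x := by
      have h2 : DifferentiableAt ℝ (fun y => pd i u y * (psi u y)⁻¹) x := hd.mul hinv
      have e3 : (fun y => pd i u y / psi u y) = fun y => pd i u y * (psi u y)⁻¹ := by
        funext y; rw [div_eq_mul_inv]
      rw [e3]; exact h2
    rw [e, pd_mul (f := fun _ => Real.sqrt 2) (by fun_prop) hdq, pd_const,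
      pd_div hd (hdψ x) (hψ0 x), hu.pd_psi]
    have := hψ0 x
    field_simp
    ring
  have e2 : lap (phi u) x = Real.sqrt 2 * (lap u x / psi u x + 2 * u x * gs u x / psi u x ^ 2) := by
    unfold lap gs
    simp_rw [e1]
    simp only [Fin.sum_univ_three]
    ring
  have e3 : lap u x = u x ^ 3 - u x := hu.eq x
  have e4 : qq u x = 1 - 2 * gs u x / psi u x ^ 2 := by
    have := R3.gs_ph hu h1 x
    rw [qq_eq_qq]; unfold R3.qq; rw [this]
  rw [e2, e3, e4]
  have h0 := hψ0 x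
  have e5 : u x ^ 3 - u x = - (u x * psi u x) := by unfold psi; ring
  rw [e5]
  field_simp
  ring

theorem stALG : StALG := by
  intro u hu
  have h1 := hu.lt
  have hs : Sol u := hu.toSol
  have hp : ContDiff ℝ 2 (phi u) := by
    have := R3.ph_contDiff hs h1 2
    exact_mod_cast this
  refine ⟨hp, fun x => R3.gs_ph_le hs h1 x, fun x => R3.qq_nonneg hs h1 x, qq_c1 hp,
    fun x => lap_phi hs h1 x, fun x => sum_hg_sq hp x, fun x h => hs_le hp (R3.gs_ph_le hs h1 x) h⟩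

end Vale.Agent.P134.H967
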