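import Vale.Agent.P134.H967.Alg
import Vale.Agent.P134.H283.Tang
import Vale.Agent.P134.H147.Base
import Vale.Agent.P134.SM.Cut

/-! `StGOOD` and `StLOW`. -/

set_option linter.all false

namespace Vale.Agent.P134.H967

open Vale.Agent.P134 Vale.Agent.P134.SM Vale.Agent.P134.LI Vale.Agent.P134.ASM
open MeasureTheory Filter Topology

variable {u : R3 → ℝ} {x y : R3}

/-- `V_{-n}(y) = f(y) (1 - p(y)·n) / 2`. -/
lemma Vd_neg_eq (hu : Sol u) (h1 : ∀ x, |u x| < 1) (n : R3) (y : R3) :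
    H283.Vd (-n) u y = ff u y * (1 - ∑ i, n i * pd i (phi u) y) / 2 := by
  unfold H283.Vd
  rw [H283.dd_neg_left]
  have : dd n u y = ff u y * ∑ i, n i * pd i (phi u) y := by
    unfold dd
    rw [Finset.mul_sum]
    refine Finset.sum_congr rfl fun i _ => ?_
    rw [H147.pd_u hu h1]; ring
  rw [this]
  have e : psi u y / Real.sqrt 2 = ff u y := rfl
  rw [e]; ring

/-- **Harnack for the direction of `Dφ`**: `|Dφ(y) - n(x)|² ≤ 2 e^{2 kH |y-x|} q(x)`. -/
theorem dir_le (hu : Sol u) (h1 : ∀ x, |u x| < 1) (hx : 0 < gs (phi u) x) (y : R3) :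
    esq (fun i => pd i (phi u) y - nn u x i)
      ≤ 2 * Real.exp (2 * (H283.kH 3 * ‖y - x‖)) * qq u x := by
  set n : R3 := nn u x with hn
  have hn1 : ∑ i, n i ^ 2 = 1 := sum_nu_sq hx
  set a : ℝ := ∑ i, n i * pd i (phi u) y with ha
  have hgy : gs (phi u) y ≤ 1 := R3.gs_ph_le hu h1 y
  have e1 : esq (fun i => pd i (phi u) y - n i) = gs (phi u) y - 2 * a + 1 := by
    rw [← hn1, ha]
    unfold esq gs
    simp only [Fin.sum_univ_three]
    ring
  have hax : ∑ i, n i * pd i (phi u) x = rr u x := by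
    have e : ∀ i, n i * pd i (phi u) x = rr u x * n i ^ 2 := by
      intro i
      rw [pd_eq_wn_mul_nu hx i]
      have : nu (phi u) i x = n i := rfl
      rw [this]; unfold rr; ring
    simp_rw [e]
    rw [← Finset.mul_sum, hn1, mul_one]
  have hV : H283.Vd (-n) u y ≤ Real.exp (3 * H283.cH 3 2 * ‖y - x‖) * H283.Vd (-n) u x := by
    have := H283.harnack_Vd hu (e := -n) (H283.neg_unit hn1.le) x y
    simpa using this
  have hψ : psi u x ≤ Real.exp (H283.kH 3 * ‖x - y‖) * psi u y := H283.harnack_psi hu y x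
  have hkH : H283.kH 3 = 3 * H283.cH 3 2 := by unfold H283.kH; norm_num
  rw [← hkH] at hV
  rw [Vd_neg_eq hu h1, Vd_neg_eq hu h1, hax] at hV
  have hfy : 0 < ff u y := H147.ff_pos h1 y
  have hfx : 0 < ff u x := H147.ff_pos h1 x
  have hf : ff u x ≤ Real.exp (H283.kH 3 * ‖y - x‖) * ff u y := by
    rw [norm_sub_rev] at hψ
    have e : ∀ z, ff u z = psi u z / Real.sqrt 2 := fun z => rfl
    rw [e, e, ← mul_div_assoc]
    exact div_le_div_of_nonneg_right hψ (by positivity)
  set E := Real.exp (H283.kH 3 * ‖y - x‖) with hE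
  have hE0 : 0 < E := Real.exp_pos _
  have hE2 : Real.exp (2 * (H283.kH 3 * ‖y - x‖)) = E * E := by
    rw [hE, ← Real.exp_add]; congr 1; ring
  have hr1 : rr u x ≤ 1 := by
    have h2 : rr u x ^ 2 = 1 - qq u x := rr_sq u x
    have h3 := R3.qq_nonneg hu h1 x
    rw [← qq_eq_qq] at h3
    nlinarith [wn_nonneg (phi u) x]
  have hr0 : 0 ≤ rr u x := wn_nonneg _ _
  have hrq : 1 - rr u x ≤ qq u x := by
    have h2 : rr u x ^ 2 = 1 - qq u x := rr_sq u x
    nlinarith
  -- f(y)(1-a) ≤ E f(x)(1-r) ≤ E² f(y)(1-r)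
  have h5 : ff u y * (1 - a) ≤ E * (ff u x * (1 - rr u x)) := by
    have := hV
    nlinarith
  have h6 : E * (ff u x * (1 - rr u x)) ≤ E * ((E * ff u y) * (1 - rr u x)) :=
    mul_le_mul_of_nonneg_left (mul_le_mul_of_nonneg_right hf (by linarith)) hE0.le
  have h7 : 1 - a ≤ E * E * (1 - rr u x) := by
    have h8 : ff u y * (1 - a) ≤ ff u y * (E * E * (1 - rr u x)) := by
      calc ff u y * (1 - a) ≤ E * ((E * ff u y) * (1 - rr u x)) := h5.trans h6
        _ = ff u y * (E * E * (1 - rr u x)) := by ring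
    exact le_of_mul_le_mul_left h8 hfy
  have h9 : E * E * (1 - rr u x) ≤ E * E * qq u x :=
    mul_le_mul_of_nonneg_left hrq (by positivity)
  rw [e1, hE2]
  nlinarith

theorem stGOOD : StGOOD := by
  intro S r e0 hS hr he
  set E := Real.exp (2 * (H283.kH 3 * r)) with hE
  have hE0 : 0 < E := Real.exp_pos _
  refine ⟨min (1 / 2) (e0 ^ 2 / (2 * E)), by positivity, ?_⟩
  intro u hu x hx hq
  have h1 := hu.lt
  have hs : Sol u := hu.toSol
  have hq1 : qq u x ≤ 1 / 2 := hq.trans (min_le_left _ _)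
  have hq2 : qq u x ≤ e0 ^ 2 / (2 * E) := hq.trans (min_le_right _ _)
  have hg : 0 < gs (phi u) x := by
    have : gs (phi u) x = 1 - qq u x := by unfold qq; ring
    rw [this]; linarith
  refine ⟨nn u x, ?_, ?_⟩
  · have : esq (nn u x) = ∑ i, nu (phi u) i x ^ 2 := rfl
    rw [this]; exact sum_nu_sq hg
  · intro y hy
    have h2 := dir_le hs h1 hg y
    have h3 : ‖y - x‖ ≤ r := (norm_le_eno _).trans hy
    have h4 : Real.exp (2 * (H283.kH 3 * ‖y - x‖)) ≤ E := by
      apply Real.exp_le_exp.mpr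
      have := H283.kH_nonneg 3
      nlinarith
    have h5 : 0 ≤ qq u x := R3.qq_nonneg hs h1 x
    have h6 : esq (fun i => pd i (phi u) y - nn u x i) ≤ e0 ^ 2 := by
      calc _ ≤ 2 * Real.exp (2 * (H283.kH 3 * ‖y - x‖)) * qq u x := h2
        _ ≤ 2 * E * (e0 ^ 2 / (2 * E)) := by
          apply mul_le_mul _ hq2 h5 (by positivity)
          linarith
        _ = e0 ^ 2 := by field_simp
    unfold eno
    calc Real.sqrt _ ≤ Real.sqrt (e0 ^ 2) := Real.sqrt_le_sqrt h6
      _ = e0 := Real.sqrt_sq he.le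

theorem stLOW : StLOW := by
  intro S δ hS hδ
  set k := H283.kH 3 with hk
  have hk0 : 0 ≤ k := H283.kH_nonneg 3
  set c0 : ℝ := 1 / Real.sqrt 2 * Real.exp (-(Real.sqrt 2 * S)) with hc0
  have hc00 : 0 < c0 := by positivity
  set c : ℝ := (Real.exp (-k) * c0) * (Real.exp (-(2 * k)) * (c0 ^ 2 * δ)) with hc
  have hcp : 0 < c := by positivity
  refine ⟨c * (SM.vb 3 * (1 / 2) ^ 3), by have := SM.vb_pos 3; positivity, ?_⟩
  intro u hu x b hx hq hxb
  have h1 := hu.lt
  have hs : Sol u := hu.toSol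
  -- pointwise lower bound on the ball of radius 1/2 around x
  have hfx : c0 ≤ ff u x := by
    rw [← H147.g1_phi h1]
    refine le_trans ?_ (H147.le_g1 _)
    apply mul_le_mul_of_nonneg_left _ (by positivity)
    apply Real.exp_le_exp.mpr
    have : (0:ℝ) ≤ Real.sqrt 2 := by positivity
    nlinarith
  have hpt : ∀ y ∈ eb x (1 / 2), c ≤ ff u y ^ 3 * qq u y := by
    intro y hy
    have hy1 : ‖y - x‖ ≤ 1 := by
      refine (norm_le_eno _).trans ?_
      have : esq (y - x) ≤ (1 / 2) ^ 2 := hy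
      unfold eno
      calc Real.sqrt _ ≤ Real.sqrt ((1 / 2) ^ 2) := Real.sqrt_le_sqrt this
        _ = 1 / 2 := Real.sqrt_sq (by norm_num)
        _ ≤ 1 := by norm_num
    have hy2 : ‖x - y‖ ≤ 1 := by rw [norm_sub_rev]; exact hy1
    have h2 : psi u x ≤ Real.exp (k * ‖x - y‖) * psi u y := H283.harnack_psi hs y x
    have h3 : defi u x ≤ Real.exp (3 * (2 * H283.cH 3 2) * ‖x - y‖) * defi u y := by
      have := H283.harnack_defi hs y x
      simpa using this
    have h4 : defi u x = ff u x ^ 2 * qq u x := H586.defi_eq_qq hs h1 x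
    have h5 : defi u y = ff u y ^ 2 * qq u y := H586.defi_eq_qq hs h1 y
    have h6 : Real.exp (k * ‖x - y‖) ≤ Real.exp k := by
      apply Real.exp_le_exp.mpr; nlinarith
    have h7 : Real.exp (3 * (2 * H283.cH 3 2) * ‖x - y‖) ≤ Real.exp (2 * k) := by
      apply Real.exp_le_exp.mpr
      have : k = 3 * H283.cH 3 2 := by rw [hk]; unfold H283.kH; norm_num
      nlinarith [norm_nonneg (x - y)]
    have hfy : 0 < ff u y := H147.ff_pos h1 y
    have hDy : 0 ≤ defi u y := hs.defi_nonneg y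
    have h8 : ff u x ≤ Real.exp k * ff u y := by
      have e : ∀ z, ff u z = psi u z / Real.sqrt 2 := fun z => rfl
      rw [e, e, ← mul_div_assoc]
      apply div_le_div_of_nonneg_right _ (by positivity)
      exact h2.trans (mul_le_mul_of_nonneg_right h6 (hs.psi_nonneg y))
    have h9 : defi u x ≤ Real.exp (2 * k) * defi u y :=
      h3.trans (mul_le_mul_of_nonneg_right h7 hDy)
    have h10 : Real.exp (-k) * c0 ≤ ff u y := by
      rw [Real.exp_neg, inv_mul_le_iff₀ (Real.exp_pos k)]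
      exact hfx.trans h8
    have h11 : c0 ^ 2 * δ ≤ defi u x := by
      rw [h4]
      exact mul_le_mul (pow_le_pow_left₀ hc00.le hfx 2) hq hδ.le (by positivity)
    have h12 : Real.exp (-(2 * k)) * (c0 ^ 2 * δ) ≤ defi u y := by
      rw [Real.exp_neg, inv_mul_le_iff₀ (Real.exp_pos _)]
      exact h11.trans h9
    calc c ≤ ff u y * defi u y := mul_le_mul h10 h12 (by positivity) hfy.le
      _ = ff u y ^ 3 * qq u y := by rw [h5]; ring
  have hcont : Continuous fun y => ff u y ^ 3 * qq u y := by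
    have hp : ContDiff ℝ 2 (phi u) := by exact_mod_cast R3.ph_contDiff hs h1 2
    have h2 : Continuous (ff u) := by
      unfold ff
      exact (continuous_const.sub ((hs.c2.continuous).pow 2)).div_const _
    exact (h2.pow 3).mul (qq_c1 hp).continuous
  have hnn : ∀ y, 0 ≤ ff u y ^ 3 * qq u y := fun y =>
    mul_nonneg (pow_nonneg (H147.ff_pos h1 y).le 3) (R3.qq_nonneg hs h1 y)
  have hsub : eb x (1 / 2) ⊆ {y | eno (y - b) ≤ 4} := by
    intro y hy
    have h2 : esq (y - x) ≤ (1 / 2) ^ 2 := hy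
    have h3 : eno (y - x) ≤ 1 / 2 := by
      unfold eno
      calc Real.sqrt _ ≤ Real.sqrt ((1 / 2) ^ 2) := Real.sqrt_le_sqrt h2
        _ = 1 / 2 := Real.sqrt_sq (by norm_num)
    have h4 := R3.eno_sub_le y x b
    show eno (y - b) ≤ 4
    linarith
  have hsub2 : {y : R3 | eno (y - b) ≤ 4} ⊆ eb b 4 := by
    intro y hy
    have h2 : eno (y - b) ≤ 4 := hy
    show esq (y - b) ≤ 4 ^ 2
    rw [← eno_sq]
    exact pow_le_pow_left₀ (eno_nonneg _) h2 2
  have hint : IntegrableOn (fun y => ff u y ^ 3 * qq u y) {y | eno (y - b) ≤ 4} :=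
    (hcont.continuousOn.integrableOn_compact (isCompact_eb b 4)).mono_set hsub2
  have hint' : IntegrableOn (fun y => ff u y ^ 3 * qq u y) (eb x (1 / 2)) := hint.mono_set hsub
  calc c * (SM.vb 3 * (1 / 2) ^ 3) = ∫ y in eb x (1 / 2), c := by
        rw [setIntegral_const, smul_eq_mul, mul_comm]
        congr 1
        exact (volume_eb x (by norm_num)).symm
    _ ≤ ∫ y in eb x (1 / 2), ff u y ^ 3 * qq u y :=
        setIntegral_mono_on (by
          refine integrableOn_const ?_
          exact (volume_eb_lt_top x _).ne) hint' (measurableSet_eb x _) hpt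
    _ ≤ ∫ y in {y | eno (y - b) ≤ 4}, ff u y ^ 3 * qq u y :=
        setIntegral_mono_set hint (Eventually.of_forall hnn) (Eventually.of_forall hsub)

end Vale.Agent.P134.H967
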