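import Vale.Agent.P134.H967.Good

/-! `StKEY` implies `StS3`. -/

set_option linter.all false

namespace Vale.Agent.P134.H967

open Vale.Agent.P134 Vale.Agent.P134.SM Vale.Agent.P134.LI Vale.Agent.P134.ASM
open MeasureTheory Filter Topology

variable {u : R3 → ℝ} {x y : R3}

/-- nearest lattice point -/
noncomputable def near (x : R3) : R3 := fun i => (round (x i) : ℝ)

lemma near_lt (x : R3) : eno (x - near x) < 1 := by
  have h : ∀ i, (x i - near x i) ^ 2 ≤ 1 / 4 := by
    intro i
    have h1 : |x i - round (x i)| ≤ 1 / 2 := abs_sub_round (x i)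
    have h2 : (x i - near x i) ^ 2 = |x i - round (x i)| ^ 2 := by rw [sq_abs]; rfl
    rw [h2]
    nlinarith [abs_nonneg (x i - round (x i))]
  have h3 : esq (x - near x) ≤ 3 / 4 := by
    unfold esq
    simp only [Fin.sum_univ_three, Pi.sub_apply]
    have a := h 0
    have b := h 1
    have c := h 2
    linarith
  unfold eno
  calc Real.sqrt _ ≤ Real.sqrt (3 / 4) := Real.sqrt_le_sqrt h3
    _ < Real.sqrt 1 := Real.sqrt_lt_sqrt (by norm_num) (by norm_num)
    _ = 1 := by simp

lemma near_latt (x : R3) (i : Fin 3) : ∃ m : ℤ, near x i = m := ⟨round (x i), rfl⟩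

lemma gain_continuous (hu : Sol u) (h1 : ∀ x, |u x| < 1) :
    Continuous fun y => ff u y ^ 3 * qq u y := by
  have hp : ContDiff ℝ 2 (phi u) := by exact_mod_cast R3.ph_contDiff hu h1 2
  have h2 : Continuous (ff u) := by
    unfold ff
    exact (continuous_const.sub ((hu.c2.continuous).pow 2)).div_const _
  exact (h2.pow 3).mul (qq_c1 hp).continuous

lemma gain_integrableOn (hu : Sol u) (h1 : ∀ x, |u x| < 1) (b : R3) :
    IntegrableOn (fun y => ff u y ^ 3 * qq u y) {y | eno (y - b) ≤ 4} := by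
  have hsub2 : {y : R3 | eno (y - b) ≤ 4} ⊆ eb b 4 := by
    intro y hy
    have h2 : eno (y - b) ≤ 4 := hy
    show esq (y - b) ≤ 4 ^ 2
    rw [← eno_sq]
    exact pow_le_pow_left₀ (eno_nonneg _) h2 2
  exact ((gain_continuous hu h1).continuousOn.integrableOn_compact (isCompact_eb b 4)).mono_set hsub2

lemma gain_pos (hu : Sol u) (h1 : ∀ x, |u x| < 1) {x b : R3} (hx : 0 < qq u x)
    (hb : eno (x - b) < 2) : 0 < ∫ y in {y | eno (y - b) ≤ 4}, ff u y ^ 3 * qq u y := by
  have hc := gain_continuous hu h1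
  have hnn : ∀ y, 0 ≤ ff u y ^ 3 * qq u y := fun y =>
    mul_nonneg (pow_nonneg (H147.ff_pos h1 y).le 3) (R3.qq_nonneg hu h1 y)
  rw [setIntegral_pos_iff_support_of_nonneg_ae (Eventually.of_forall hnn)
    (gain_integrableOn hu h1 b)]
  have hop : IsOpen (Function.support (fun y => ff u y ^ 3 * qq u y) ∩ {y : R3 | eno (y - b) < 2}) :=
    hc.isOpen_support.inter
      (isOpen_lt (continuous_eno.comp (continuous_id.sub continuous_const)) continuous_const)
  have h3 := hop.measure_pos (volume : Measure R3)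
    ⟨x, (mul_pos (pow_pos (H147.ff_pos h1 x) 3) hx).ne', hb⟩
  refine h3.trans_le (measure_mono ?_)
  rintro y ⟨hy1, hy2⟩
  refine ⟨hy1, ?_⟩
  have h4 : eno (y - b) < 2 := hy2
  show eno (y - b) ≤ 4
  linarith

lemma hypC_mono {C C' : ℝ} (h : C ≤ C') {V : R3 → ℝ} (hV : HypC C V) : HypC C' V := by
  intro R ε hR hε
  obtain ⟨X, h1, h2, h3⟩ := hV R ε hR hε
  exact ⟨X, h1, fun x hx => (h2 x hx).trans h, h3⟩

theorem s3_of_key (hK : StKEY) : StS3 := by
  intro u hu
  have h1 := hu.lt
  have hs : Sol u := hu.toSol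
  obtain ⟨CX0, hCX0⟩ := hu.hyp
  have hCX : HypC (max CX0 1) (VV u) := hypC_mono (le_max_left _ _) hCX0
  obtain ⟨S, δ1, hS, hδ, hK⟩ := hK (max CX0 1) (lt_max_of_lt_right one_pos)
  -- no point of the slab with `q > δ1`
  have hsmall : ∀ x, |phi u x| ≤ S → qq u x ≤ δ1 := by
    obtain ⟨c1, hc1, hlow⟩ := stLOW S δ1 hS hδ
    set B : Set R3 := {b | (∀ i, ∃ m : ℤ, b i = m) ∧
      ∃ x, |phi u x| ≤ S ∧ δ1 ≤ qq u x ∧ eno (x - b) ≤ 1} with hB
    have hBe : B = ∅ := by
      apply hK c1 hc1 u hu hCX B (fun b hb => hb.1)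
      · intro x hx hfar
        by_contra hcon
        have hcon' : δ1 < qq u x := not_le.mp hcon
        have hmem : near x ∈ B := ⟨near_latt x, x, hx, hcon'.le, (near_lt x).le⟩
        have := hfar _ hmem
        have h2 := near_lt x
        linarith
      · rintro b ⟨-, x, hx, hq, hxb⟩
        exact hlow u hu x b hx hq hxb
    intro x hx
    by_contra hcon
    have hcon' : δ1 < qq u x := not_le.mp hcon
    have hmem : near x ∈ B := ⟨near_latt x, x, hx, hcon'.le, (near_lt x).le⟩
    rw [hBe] at hmem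
    exact hmem
  intro x
  by_contra hne
  have hpos : 0 < qq u x := lt_of_le_of_ne (R3.qq_nonneg hs h1 x) (Ne.symm hne)
  have hnl : eno (x - near x) < 2 := by have := near_lt x; linarith
  have hc1 := gain_pos hs h1 hpos hnl
  have := hK _ hc1 u hu hCX {near x} (fun b hb i => by
    rw [Set.mem_singleton_iff.mp hb]; exact near_latt x i)
    (fun y hy _ => hsmall y hy) (fun b hb => by rw [Set.mem_singleton_iff.mp hb])
  exact Set.singleton_ne_empty _ this

end Vale.Agent.P134.H967
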