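import Vale.Agent.P134.H967.Alg
import Vale.Agent.P134.H283.Har3
import Vale.Agent.P134.ASM.Lev

/-! `StHAR`, and `StSLAB → StSLAB2`. -/

set_option linter.all false

namespace Vale.Agent.P134.H967

open Vale.Agent.P134 Vale.Agent.P134.SM Vale.Agent.P134.LI Vale.Agent.P134.ASM
open MeasureTheory Filter Topology

variable {u : R3 → ℝ} {x y : R3}

theorem stHAR : StHAR := by
  obtain ⟨C1, hC1, h1⟩ := H283.exists_hs_bound
  obtain ⟨C2, hC2, h2⟩ := H283.har1
  refine ⟨C1 + C1 ^ 2 + C2 + C2 ^ 2, by positivity, fun u hu x => ?_⟩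
  have hs : Sol u := hu.toSol
  have hlt := hu.lt
  have hq : 0 ≤ qq u x := R3.qq_nonneg hs hlt x
  have hq1 : qq u x ≤ 1 := R3.qq_le_one u x
  obtain ⟨a, b⟩ := h1 u hs hlt x
  have hqq : 0 ≤ qq u x ^ 2 := sq_nonneg _
  refine ⟨?_, ?_, fun hq2 => ?_⟩
  · refine a.trans (mul_le_mul_of_nonneg_right ?_ hq)
    nlinarith [sq_nonneg C1, sq_nonneg C2]
  · refine b.trans ?_
    rw [mul_pow]
    refine mul_le_mul_of_nonneg_right ?_ hqq
    nlinarith [sq_nonneg C2]
  · obtain ⟨c, d, -, -⟩ := h2 u hs hlt x hq2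
    constructor
    · refine d.trans (mul_le_mul_of_nonneg_right ?_ hq)
      nlinarith [sq_nonneg C1, sq_nonneg C2]
    · have : hh u x ^ 2 ≤ (C2 * qq u x) ^ 2 := by
        rw [← sq_abs]
        exact pow_le_pow_left₀ (abs_nonneg _) c 2
      refine this.trans ?_
      rw [mul_pow]
      refine mul_le_mul_of_nonneg_right ?_ hqq
      nlinarith [sq_nonneg C1]

lemma measurable_pd (f : R3 → ℝ) (i : Fin 3) : Measurable (pd i f) := by
  unfold pd
  exact measurable_fderiv_apply_const ℝ f _

lemma measurableSet_Far (B : Set R3) (r : ℝ) : MeasurableSet {x | Far B r x} := by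
  have : {x | Far B r x} = ⋂ b ∈ B, {x | r ≤ eno (x - b)} := by
    ext x; simp [Far]
  rw [this]
  apply IsClosed.measurableSet
  apply isClosed_biInter
  intro b _
  exact isClosed_le continuous_const (continuous_eno.comp (continuous_id.sub continuous_const))

open Classical in
lemma measurable_iF (B : Set R3) (r : ℝ) : Measurable (iF B r) := by
  unfold iF
  exact Measurable.ite (measurableSet_Far B r) measurable_const measurable_const

lemma iF_nonneg (B : Set R3) (r : ℝ) (x : R3) : 0 ≤ iF B r x := by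
  unfold iF; split_ifs <;> norm_num

lemma iF_le_one (B : Set R3) (r : ℝ) (x : R3) : iF B r x ≤ 1 := by
  unfold iF; split_ifs <;> norm_num

lemma measurable_nu (f : R3 → ℝ) (i : Fin 3) : Measurable (nu f i) := by
  have e : nu f i = fun x => pd i f x / wn f x := rfl
  rw [e]
  apply (measurable_pd f i).div
  unfold wn gs
  exact (Finset.measurable_sum _ fun i _ => (measurable_pd f i).pow_const 2).sqrt

lemma measurable_aa (u : R3 → ℝ) (i j : Fin 3) : Measurable (aa u i j) := by
  unfold aa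
  refine (measurable_pd _ _).sub (Measurable.mul ?_ (measurable_nu _ _))
  exact Finset.measurable_sum _ fun k _ => (measurable_pd _ _).mul (measurable_nu _ _)

lemma measurable_a2 (u : R3 → ℝ) : Measurable (a2 u) := by
  unfold a2
  exact Finset.measurable_sum _ fun i _ => Finset.measurable_sum _ fun j _ =>
    (measurable_aa u i j).pow_const 2

lemma measurable_hh (u : R3 → ℝ) : Measurable (hh u) := by
  unfold hh mc
  exact Finset.measurable_sum _ fun i _ => measurable_pd _ _

/-- `|D²φ|²` -/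
noncomputable def hs' (u : R3 → ℝ) (x : R3) : ℝ := SM.hs (phi u) x

theorem slab2 (h : StSLAB) : StSLAB2 := by
  obtain ⟨C, hC, har⟩ := stHAR
  intro CX ε s3 hCX hε hs3
  obtain ⟨δ0, c2, hδ0, hc2, h⟩ := h CX ε s3 hCX hε hs3
  refine ⟨min δ0 (min (1 / 2) (c2 / (3 * C))), c2 / 2, by positivity, by positivity, ?_⟩
  intro c1 hc1
  obtain ⟨W0, hW0, h⟩ := h c1 hc1
  refine ⟨W0, hW0, fun W hW κ hκ => ?_⟩
  obtain ⟨lam0, hlam0, h⟩ := h W hW κ hκ
  refine ⟨lam0, hlam0, ?_⟩
  intro u hu hX B hB hq hb lam hlam hlam' η hη hη1 hη2 hη3 w hw hw1 hw2 hw3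
  have key := h u hu hX B hB (fun x h1 h2 => (hq x h1 h2).trans (min_le_left _ _)) hb lam hlam hlam'
    η hη hη1 hη2 hη3 w hw hw1 hw2 hw3
  refine le_trans ?_ key
  have hs : Sol u := hu.toSol
  have hlt := hu.lt
  have hp : ContDiff ℝ 2 (phi u) := by exact_mod_cast R3.ph_contDiff hs hlt 2
  have hq0 : ∀ x, 0 ≤ qq u x := fun x => R3.qq_nonneg hs hlt x
  have hW1 : 0 < W := hW0.trans_le hW
  have hsig : 0 ≤ sig0 := by unfold sig0; positivity
  have hrr0 : ∀ x, 0 ≤ rr u x := fun x => wn_nonneg _ _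
  have hrr1 : ∀ x, rr u x ≤ 1 := by
    intro x
    have h2 := rr_sq u x
    nlinarith [hq0 x, hrr0 x]
  -- small `q` on the relevant set
  have hsm : ∀ x, iF B (2 * W) x ≠ 0 → w (phi u x) ≠ 0 →
      qq u x ≤ 1 / 2 ∧ qq u x ≤ c2 / (3 * C) := by
    intro x h1 h2
    have hf : Far B (2 * W) x := by
      by_contra hcon
      apply h1; unfold iF; rw [if_neg hcon]
    have hf' : Far B (W / 4) x := fun b hb => le_trans (by linarith) (hf b hb)
    have hphi : |phi u x| ≤ s3 + 1 := by
      by_contra hcon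
      apply h2
      apply hw2
      have := not_le.mp hcon
      linarith
    have h3 := hq x hphi hf'
    exact ⟨h3.trans ((min_le_right _ _).trans (min_le_left _ _)),
      h3.trans ((min_le_right _ _).trans (min_le_right _ _))⟩
  have hpt : ∀ x, iF B (2 * W) x ≠ 0 → w (phi u x) ≠ 0 →
      hs' u x / 2 + c2 / 2 * qq u x ≤ (a2 u x - hh u x ^ 2) / 2 + c2 * qq u x := by
    intro x h1 h2
    obtain ⟨h3, h4⟩ := hsm x h1 h2
    obtain ⟨-, b, c⟩ := har u hu x
    obtain ⟨-, d⟩ := c h3
    have hrr : 1 / 2 ≤ rr u x := by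
      have h5 := rr_sq u x
      by_contra hcon
      have := not_le.mp hcon
      nlinarith [hrr0 x]
    have e := hs_le hp (R3.gs_ph_le hs hlt x) hrr
    have f : C * qq u x ^ 2 ≤ c2 / 3 * qq u x := by
      have h6 : C * qq u x ≤ c2 / 3 := by
        have := mul_le_mul_of_nonneg_left h4 hC.le
        calc C * qq u x ≤ C * (c2 / (3 * C)) := this
          _ = c2 / 3 := by field_simp
      nlinarith [hq0 x]
    unfold hs'
    nlinarith [hq0 x]
  have hint : Integrable fun x => iF B (2 * W) x * (w (phi u x) * rr u x *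
      η x ^ 2 * ((a2 u x - hh u x ^ 2) / 2 + c2 * qq u x)) := by
    have hG := (Gw_sq_integrable hlam).const_mul (C + c2)
    refine hG.mono' ?_ ?_
    · have m1 : Measurable (rr u) := by
        have e : rr u = wn (phi u) := rfl
        rw [e]; unfold wn gs
        exact (Finset.measurable_sum _ fun i _ => (measurable_pd _ i).pow_const 2).sqrt
      have m2 : Measurable (qq u) := (qq_c1 hp).continuous.measurable
      exact ((measurable_iF B _).mul ((((hw.comp hp.continuous).measurable.mul m1).mul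
        (hη.continuous.measurable.pow_const 2)).mul (((((measurable_a2 u).sub
        ((measurable_hh u).pow_const 2))).div_const 2).add (m2.const_mul c2)))).aestronglyMeasurable
    · refine Eventually.of_forall fun x => ?_
      have hG2 : 0 ≤ Gw lam x ^ 2 := sq_nonneg _
      by_cases h1 : iF B (2 * W) x = 0
      · rw [h1, zero_mul, norm_zero]
        positivity
      by_cases h2 : w (phi u x) = 0
      · rw [h2, zero_mul, zero_mul, zero_mul, mul_zero, norm_zero]
        positivity
      obtain ⟨h3, -⟩ := hsm x h1 h2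
      obtain ⟨-, -, c⟩ := har u hu x
      obtain ⟨c, d⟩ := c h3
      have ha0 : 0 ≤ a2 u x :=
        Finset.sum_nonneg fun _ _ => Finset.sum_nonneg fun _ _ => sq_nonneg _
      have hqx := hq0 x
      have hb1 : |(a2 u x - hh u x ^ 2) / 2 + c2 * qq u x| ≤ C + c2 := by
        rw [abs_le]
        constructor <;> nlinarith [sq_nonneg (hh u x)]
      have hb2 : |η x ^ 2| ≤ Gw lam x ^ 2 := by
        rw [abs_of_nonneg (sq_nonneg _)]
        exact pow_le_pow_left₀ (hη1 x).1 (hη1 x).2 2
      have hb3 : |iF B (2 * W) x| ≤ 1 := by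
        rw [abs_of_nonneg (iF_nonneg _ _ _)]; exact iF_le_one _ _ _
      have hb4 : |w (phi u x)| ≤ 1 := by
        rw [abs_of_nonneg (hw1 _).1]; exact (hw1 _).2
      have hb5 : |rr u x| ≤ 1 := by rw [abs_of_nonneg (hrr0 x)]; exact hrr1 x
      rw [Real.norm_eq_abs, abs_mul, abs_mul, abs_mul, abs_mul]
      calc _ ≤ 1 * (1 * 1 * Gw lam x ^ 2 * (C + c2)) := by gcongr
        _ = (C + c2) * Gw lam x ^ 2 := by ring
  have hmono : (∫ x, iF B (2 * W) x * (w (phi u x) * rr u x *
        η x ^ 2 * (hs' u x / 2 + c2 / 2 * qq u x)))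
      ≤ ∫ x, iF B (2 * W) x * (w (phi u x) * rr u x *
        η x ^ 2 * ((a2 u x - hh u x ^ 2) / 2 + c2 * qq u x)) := by
    apply integral_mono_of_nonneg _ hint
    · refine Eventually.of_forall fun x => ?_
      show iF B (2 * W) x * (w (phi u x) * rr u x *
        η x ^ 2 * (hs' u x / 2 + c2 / 2 * qq u x)) ≤ iF B (2 * W) x * (w (phi u x) * rr u x *
        η x ^ 2 * ((a2 u x - hh u x ^ 2) / 2 + c2 * qq u x))
      by_cases h1 : iF B (2 * W) x = 0
      · rw [h1, zero_mul, zero_mul]
      by_cases h2 : w (phi u x) = 0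
      · rw [h2]; simp
      have := hpt x h1 h2
      have hwx := (hw1 (phi u x)).1
      have h5 : 0 ≤ w (phi u x) * rr u x * η x ^ 2 :=
        mul_nonneg (mul_nonneg hwx (hrr0 x)) (sq_nonneg _)
      exact mul_le_mul_of_nonneg_left (mul_le_mul_of_nonneg_left this h5) (iF_nonneg _ _ _)
    · refine Eventually.of_forall fun x => ?_
      have hwx := (hw1 (phi u x)).1
      have h5 : 0 ≤ w (phi u x) * rr u x * η x ^ 2 :=
        mul_nonneg (mul_nonneg hwx (hrr0 x)) (sq_nonneg _)
      have h6 : 0 ≤ hs' u x := by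
        unfold hs' SM.hs
        exact Finset.sum_nonneg fun _ _ => Finset.sum_nonneg fun _ _ => sq_nonneg _
      have h7 := hq0 x
      show 0 ≤ iF B (2 * W) x * (w (phi u x) * rr u x *
        η x ^ 2 * (hs' u x / 2 + c2 / 2 * qq u x))
      exact mul_nonneg (iF_nonneg _ _ _) (mul_nonneg h5 (by positivity))
  have := mul_le_mul_of_nonneg_left hmono hsig
  have e : ∀ x, SM.hs (phi u) x = hs' u x := fun x => rfl
  simp only [e]
  linarith

end Vale.Agent.P134.H967
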