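import Vale.Agent.P134.H967.Slab2
import Vale.Agent.P134.H988.StMet
import Vale.Agent.P134.ASM.Vol

/-! Assembly of `StKEY`, part 1: configuration and pointwise inequalities. -/

set_option linter.all false

namespace Vale.Agent.P134.H967

open Vale.Agent.P134 Vale.Agent.P134.SM Vale.Agent.P134.LI Vale.Agent.P134.ASM
open MeasureTheory Filter Topology

/-- cut-off in the level: `1` for `|t| ≤ A`, `0` for `|t| ≥ A + 1/2`. -/
noncomputable def tA (A t : ℝ) : ℝ :=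
  Real.smoothTransition (((A + 1 / 2) ^ 2 - t ^ 2) / ((A + 1 / 2) ^ 2 - A ^ 2))

lemma tA_cd (A : ℝ) : ContDiff ℝ 1 (tA A) := by
  unfold tA
  exact Real.smoothTransition.contDiff.comp ((contDiff_const.sub (contDiff_id.pow 2)).div_const _)

lemma tA_nonneg (A t : ℝ) : 0 ≤ tA A t := Real.smoothTransition.nonneg _
lemma tA_le_one (A t : ℝ) : tA A t ≤ 1 := Real.smoothTransition.le_one _

lemma tA_one {A t : ℝ} (hA : 0 ≤ A) (h : |t| ≤ A) : tA A t = 1 := by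
  unfold tA
  apply Real.smoothTransition.one_of_one_le
  have h1 : t ^ 2 ≤ A ^ 2 := by
    rw [← sq_abs]; exact pow_le_pow_left₀ (abs_nonneg t) h 2
  rw [le_div_iff₀ (by nlinarith)]
  linarith

lemma tA_zero {A t : ℝ} (hA : 0 ≤ A) (h : A + 1 / 2 ≤ |t|) : tA A t = 0 := by
  unfold tA
  apply Real.smoothTransition.zero_of_nonpos
  have h1 : (A + 1 / 2) ^ 2 ≤ t ^ 2 := by
    rw [← sq_abs t]; exact pow_le_pow_left₀ (by linarith) h 2
  apply div_nonpos_of_nonpos_of_nonneg (by linarith) (by nlinarith)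

lemma exists_tA_bound (A : ℝ) (hA : 0 ≤ A) : ∃ K : ℝ, 0 ≤ K ∧ ∀ t, |deriv (tA A) t| ≤ K := by
  have hc : Continuous (deriv (tA A)) := (tA_cd A).continuous_deriv le_rfl
  obtain ⟨K, hK⟩ := (isCompact_Icc (a := -(A + 1)) (b := A + 1)).exists_bound_of_continuousOn
    hc.continuousOn
  refine ⟨max K 0, le_max_right _ _, fun t => ?_⟩
  by_cases ht : t ∈ Set.Icc (-(A + 1)) (A + 1)
  · have := hK t ht
    rw [Real.norm_eq_abs] at this
    exact this.trans (le_max_left _ _)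
  · have hz : deriv (tA A) t = 0 := by
      have hev : tA A =ᶠ[𝓝 t] fun _ => 0 := by
        have hop : IsOpen {s : ℝ | A + 1 / 2 < |s|} := isOpen_lt continuous_const continuous_abs
        have hmem : t ∈ {s : ℝ | A + 1 / 2 < |s|} := by
          show A + 1 / 2 < |t|
          by_contra hcon
          apply ht
          have := abs_le.mp (not_lt.mp hcon)
          exact ⟨by linarith [this.1], by linarith [this.2]⟩
        filter_upwards [hop.mem_nhds hmem] with s hs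
        exact tA_zero hA (le_of_lt hs)
      rw [hev.deriv_eq]; simp
    rw [hz, abs_zero]; exact le_max_right _ _

/-- the data of the assembly -/
structure Cfg (u : R3 → ℝ) (B : Set R3) (s1 e C L0 R1 lam ε T : ℝ) (h P : ℝ → ℝ)
    (rs : R3 → ℝ) : Prop where
  hs : HS u
  latt : Latt B
  s1_ge : 10000 ≤ s1
  e_pos : 0 < e
  e_le : e ≤ 1 / 1000
  C_ge : 1 ≤ C
  L_ge : 1 ≤ L0
  R_ge : 1 ≤ R1
  T_ge : 10 * (R1 + C) ≤ T
  ε_pos : 0 < ε
  ε_le : ε ≤ 1 / 100000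
  lam_pos : 0 < lam
  lam_le : lam ≤ ε
  lam_R : lam * (4 * R1 + 2 + 2 * L0) ≤ 1
  lam_V : 1001 * lam ^ 2 * (4 * R1 + 2 + 2 * L0) ^ 3 ≤ ε
  q_le : ∀ x, |phi u x| ≤ s1 + 10 → Far B 1 x → qq u x ≤ 1 / 100
  h_cd : ContDiff ℝ 1 h
  h_nonneg : ∀ t, 0 ≤ h t
  h_anti : AntitoneOn h (Set.Ici 0)
  h_zero : ∀ t, R1 ≤ t → h t = 0
  h_deriv : ∀ t, 0 ≤ t → |deriv h t| ≤ ε * h t + ε / R1 ^ 3
  P_cd : ContDiff ℝ 1 P
  P_bd : ∀ t, 0 ≤ P t ∧ P t ≤ 1
  P_one : ∀ t, t ≤ 0 → P t = 1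
  P_zero : ∀ t, 4 * R1 ≤ t → P t = 0
  P_deriv : ∀ t, |deriv P t| ≤ ε
  P_deriv2 : ∀ t, 0 ≤ t → deriv P t ^ 2 ≤ (1 + 10 * e + ε) * h ((1 + e) * (t + 1) + C) + ε / R1 ^ 3
  h_le_P : ∀ t, 0 ≤ t → h ((1 + e) * (t + 1) + C) ≤ ε * P t ^ 2
  Ph_le : ∀ t t', 0 ≤ t → t - 1 ≤ t' →
    Ph h R1 (max 0 ((1 - e) * t' - C)) ≤ 135 / 1000 * P t ^ 2
  cd_meas : Measurable (chd (phi u) B (s1 + 10) (2 * L0) 2 T)
  cd_bd : ∀ x, 0 ≤ chd (phi u) B (s1 + 10) (2 * L0) 2 T x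
  cd_far : ∀ x R, R ≤ T → chd (phi u) B (s1 + 10) (2 * L0) 2 T x < R → ¬ Far B (R + 2 * L0) x
  rs_cd : ContDiff ℝ 1 rs
  rs_nonneg : ∀ x, 0 ≤ rs x
  rs_K : ∃ K, ∀ x, gs rs x ≤ K
  rs_gs : ∀ x, |phi u x| ≤ s1 + 10 - 1 / 4 → gs rs x ≤ 1
  rs_chd : ∀ x, |phi u x| ≤ s1 + 10 - 1 / 4 →
    |rs x - chd (phi u) B (s1 + 10) (2 * L0) 2 T x| ≤ 1
  rs_zero : ∀ x, |phi u x| ≤ s1 + 10 - 1 / 4 → ¬ Far B (2 * L0 - 1) x → rs x = 0

/-- the test function -/
noncomputable def et (u : R3 → ℝ) (s1 lam : ℝ) (P : ℝ → ℝ) (rs : R3 → ℝ) (x : R3) : ℝ :=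
  Gw lam x * (1 - tA (s1 + 9) (phi u x) * (1 - P (rs x)))

/-- `h` along the shifted distance -/
noncomputable def gg' (e C : ℝ) (h : ℝ → ℝ) (rs : R3 → ℝ) (x : R3) : ℝ :=
  h ((1 + e) * (rs x + 1) + C)

section pointwise

variable {u : R3 → ℝ} {B : Set R3} {s1 e C L0 R1 lam ε T : ℝ} {h P : ℝ → ℝ} {rs : R3 → ℝ}

lemma phi_cd (hu : HS u) : ContDiff ℝ 2 (phi u) := (stALG u hu).1

lemma et_cd (H : Cfg u B s1 e C L0 R1 lam ε T h P rs) : ContDiff ℝ 1 (et u s1 lam P rs) := by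
  have hp : ContDiff ℝ 1 (phi u) := (phi_cd H.hs).of_le (by norm_num)
  unfold et
  exact (H586.Gw_cd lam).mul (contDiff_const.sub (((tA_cd _).comp hp).mul
    (contDiff_const.sub (H.P_cd.comp H.rs_cd))))

lemma et_bd (H : Cfg u B s1 e C L0 R1 lam ε T h P rs) (x : R3) :
    0 ≤ et u s1 lam P rs x ∧ et u s1 lam P rs x ≤ Gw lam x := by
  have h1 := tA_nonneg (s1 + 9) (phi u x)
  have h2 := tA_le_one (s1 + 9) (phi u x)
  obtain ⟨h3, h4⟩ := H.P_bd (rs x)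
  have h5 := (H586.Gw_pos lam x)
  have h6 : 0 ≤ tA (s1 + 9) (phi u x) * (1 - P (rs x)) := mul_nonneg h1 (by linarith)
  have h7 : tA (s1 + 9) (phi u x) * (1 - P (rs x)) ≤ 1 := by nlinarith
  unfold et
  constructor
  · exact mul_nonneg h5.le (by linarith)
  · nlinarith

/-- on the slab the test function is `Gw * P(rs)` -/
lemma et_slab (H : Cfg u B s1 e C L0 R1 lam ε T h P rs) {x : R3} (hx : |phi u x| ≤ s1 + 9) :
    et u s1 lam P rs x = Gw lam x * P (rs x) := by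
  unfold et
  have := H.s1_ge
  rw [tA_one (by linarith) hx]; ring

lemma et_near (H : Cfg u B s1 e C L0 R1 lam ε T h P rs) {W : ℝ} (hW : 4 * W ≤ 2 * L0 - 1) {x : R3}
    (hx : ¬ Far B (4 * W) x) (hx2 : |phi u x| ≤ s1 + 9) : et u s1 lam P rs x = Gw lam x := by
  rw [et_slab H hx2]
  have h1 : ¬ Far B (2 * L0 - 1) x := fun hf => hx fun b hb => hW.trans (hf b hb)
  rw [H.rs_zero x (by linarith) h1, H.P_one 0 le_rfl, mul_one]

lemma pd_comp1 {f : ℝ → ℝ} {g : R3 → ℝ} (hf : ContDiff ℝ 1 f) (hg : ContDiff ℝ 1 g) (i : Fin 3)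
    (x : R3) : pd i (fun y => f (g y)) x = deriv f (g x) * pd i g x :=
  pd_comp (hf.differentiable (by norm_num) _) (hg.differentiable (by norm_num) _)

lemma diff1 {g : R3 → ℝ} (hg : ContDiff ℝ 1 g) : Differentiable ℝ g :=
  hg.differentiable (by norm_num)

lemma P_deriv_zero (H : Cfg u B s1 e C L0 R1 lam ε T h P rs) {t : ℝ} (ht : 4 * R1 ≤ t) :
    deriv P t = 0 := by
  apply IsLocalMin.deriv_eq_zero
  apply Eventually.of_forall
  intro s
  rw [H.P_zero t ht]; exact (H.P_bd s).1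

lemma gs_mul_le {a b : R3 → ℝ} (ha : ContDiff ℝ 1 a) (hb : ContDiff ℝ 1 b) (x : R3) :
    gs (fun y => a y * b y) x
      ≤ (1 + 1 / 1000) * (a x ^ 2 * gs b x) + 1001 * (b x ^ 2 * gs a x) := by
  unfold gs
  have e1 : ∀ i, pd i (fun y => a y * b y) x = pd i a x * b x + a x * pd i b x := by
    intro i
    rw [pd_mul (diff1 ha x) (diff1 hb x)]; ring
  simp_rw [e1]
  rw [Finset.mul_sum, Finset.mul_sum, Finset.mul_sum, Finset.mul_sum, ← Finset.sum_add_distrib]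
  apply Finset.sum_le_sum
  intro i _
  nlinarith [sq_nonneg (a x * pd i b x - 1000 * (pd i a x * b x))]

/-- bound of `|Dη|²` on the slab -/
lemma gs_et_slab (H : Cfg u B s1 e C L0 R1 lam ε T h P rs) {x : R3} (hx : |phi u x| < s1 + 9) :
    gs (et u s1 lam P rs) x ≤ (1 + 1 / 1000) * (Gw lam x ^ 2 * deriv P (rs x) ^ 2)
      + 1001 * (P (rs x) ^ 2 * (lam ^ 2 * Gw lam x ^ 2)) := by
  have hp : Continuous (phi u) := (phi_cd H.hs).continuous
  have hev : et u s1 lam P rs =ᶠ[𝓝 x] fun y => Gw lam y * P (rs y) := by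
    have hop : IsOpen {y | |phi u y| < s1 + 9} := isOpen_lt hp.abs continuous_const
    filter_upwards [hop.mem_nhds hx] with y hy
    exact et_slab H (le_of_lt hy)
  have e1 : gs (et u s1 lam P rs) x = gs (fun y => Gw lam y * P (rs y)) x := by
    unfold gs
    refine Finset.sum_congr rfl fun i _ => ?_
    rw [pd_congr hev]
  have hPr : ContDiff ℝ 1 fun y => P (rs y) := H.P_cd.comp H.rs_cd
  have h1 := gs_mul_le (H586.Gw_cd lam) hPr x
  rw [e1]
  refine h1.trans ?_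
  have h2 : gs (fun y => P (rs y)) x ≤ deriv P (rs x) ^ 2 := by
    have e2 : gs (fun y => P (rs y)) x = deriv P (rs x) ^ 2 * gs rs x := by
      unfold gs
      rw [Finset.mul_sum]
      refine Finset.sum_congr rfl fun i _ => ?_
      rw [pd_comp1 H.P_cd H.rs_cd]; ring
    rw [e2]
    have := H.rs_gs x (by linarith)
    nlinarith [sq_nonneg (deriv P (rs x))]
  have h3 := H586.gs_Gw_le lam x
  have h4 : 0 ≤ Gw lam x ^ 2 := sq_nonneg _
  have h5 : 0 ≤ P (rs x) ^ 2 := sq_nonneg _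
  have h6 := mul_le_mul_of_nonneg_left h2 h4
  have h7 := mul_le_mul_of_nonneg_left h3 h5
  linarith

/-- global bound of `|Dη|²` -/
lemma gs_et_le (H : Cfg u B s1 e C L0 R1 lam ε T h P rs) :
    ∃ M : ℝ, ∀ x, gs (et u s1 lam P rs) x ≤ M * Gw lam x ^ 2 := by
  obtain ⟨K, hK⟩ := H.rs_K
  obtain ⟨K2, hK20, hK2⟩ := exists_tA_bound (s1 + 9) (by have := H.s1_ge; linarith)
  have hK0 : 0 ≤ K := (gs_nonneg rs 0).trans (hK 0)
  refine ⟨2 * (2 * K2 ^ 2 + 2 * K) + 1001 * lam ^ 2, fun x => ?_⟩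
  have hp1 : ContDiff ℝ 1 (phi u) := (phi_cd H.hs).of_le (by norm_num)
  have hPr : ContDiff ℝ 1 fun y => P (rs y) := H.P_cd.comp H.rs_cd
  have hb : ContDiff ℝ 1 fun y => (1 - tA (s1 + 9) (phi u y) * (1 - P (rs y))) :=
    contDiff_const.sub (((tA_cd _).comp hp1).mul (contDiff_const.sub hPr))
  have h1 := gs_mul_le (H586.Gw_cd lam) hb x
  have e0 : et u s1 lam P rs = fun y => Gw lam y * (1 - tA (s1 + 9) (phi u y) * (1 - P (rs y))) := rfl
  rw [e0]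
  refine h1.trans ?_
  have e1 : ∀ i, pd i (fun y => (1 - tA (s1 + 9) (phi u y) * (1 - P (rs y)))) x
      = - (deriv (tA (s1 + 9)) (phi u x) * pd i (phi u) x * (1 - P (rs x)))
        + tA (s1 + 9) (phi u x) * (deriv P (rs x) * pd i rs x) := by
    intro i
    have d1 : DifferentiableAt ℝ (fun y => tA (s1 + 9) (phi u y)) x :=
      diff1 ((tA_cd _).comp hp1) x
    have d2 : DifferentiableAt ℝ (fun y => 1 - P (rs y)) x := diff1 (contDiff_const.sub hPr) x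
    have d3 : DifferentiableAt ℝ (fun y => tA (s1 + 9) (phi u y) * (1 - P (rs y))) x := d1.mul d2
    have d4 : DifferentiableAt ℝ (fun _ : R3 => (1:ℝ)) x := by fun_prop
    rw [pd_sub d4 d3, pd_const, pd_mul d1 d2,
      pd_sub d4 (diff1 hPr x), pd_const, pd_comp1 (tA_cd _) hp1, pd_comp1 H.P_cd H.rs_cd]
    ring
  have h2 : gs (fun y => (1 - tA (s1 + 9) (phi u y) * (1 - P (rs y)))) x
      ≤ 2 * K2 ^ 2 + 2 * K := by
    have ha : ∀ i, pd i (fun y => (1 - tA (s1 + 9) (phi u y) * (1 - P (rs y)))) x ^ 2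
        ≤ 2 * K2 ^ 2 * pd i (phi u) x ^ 2 + 2 * pd i rs x ^ 2 := by
      intro i
      rw [e1]
      have a1 := abs_le.mp (hK2 (phi u x))
      have a2 := abs_le.mp (H.P_deriv (rs x))
      have a3 := H.P_bd (rs x)
      have a4 := tA_nonneg (s1 + 9) (phi u x)
      have a5 := tA_le_one (s1 + 9) (phi u x)
      have b1 : (deriv (tA (s1 + 9)) (phi u x)) ^ 2 ≤ K2 ^ 2 := by nlinarith
      have b2 : (1 - P (rs x)) ^ 2 ≤ 1 := by nlinarith
      have b3 : (tA (s1 + 9) (phi u x)) ^ 2 ≤ 1 := by nlinarith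
      have b4 : (deriv P (rs x)) ^ 2 ≤ 1 := by
        have := H.ε_le
        nlinarith
      have c1 : (deriv (tA (s1 + 9)) (phi u x) * pd i (phi u) x * (1 - P (rs x))) ^ 2
          ≤ K2 ^ 2 * pd i (phi u) x ^ 2 := by
        calc _ = (deriv (tA (s1 + 9)) (phi u x)) ^ 2 * (1 - P (rs x)) ^ 2 * pd i (phi u) x ^ 2 := by
              ring
          _ ≤ K2 ^ 2 * 1 * pd i (phi u) x ^ 2 := by gcongr
          _ = _ := by ring
      have c2 : (tA (s1 + 9) (phi u x) * (deriv P (rs x) * pd i rs x)) ^ 2 ≤ pd i rs x ^ 2 := by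
        calc _ = (tA (s1 + 9) (phi u x)) ^ 2 * (deriv P (rs x)) ^ 2 * pd i rs x ^ 2 := by ring
          _ ≤ 1 * 1 * pd i rs x ^ 2 := by gcongr
          _ = _ := by ring
      nlinarith [sq_nonneg (deriv (tA (s1 + 9)) (phi u x) * pd i (phi u) x * (1 - P (rs x))
        + tA (s1 + 9) (phi u x) * (deriv P (rs x) * pd i rs x))]
    calc gs (fun y => (1 - tA (s1 + 9) (phi u y) * (1 - P (rs y)))) x
        ≤ ∑ i, (2 * K2 ^ 2 * pd i (phi u) x ^ 2 + 2 * pd i rs x ^ 2) :=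
          Finset.sum_le_sum fun i _ => ha i
      _ = 2 * K2 ^ 2 * gs (phi u) x + 2 * gs rs x := by
          unfold gs
          rw [Finset.sum_add_distrib, ← Finset.mul_sum, ← Finset.mul_sum]
      _ ≤ 2 * K2 ^ 2 * 1 + 2 * K := by
          have h3 := (stALG u H.hs).2.1 x
          have h4 := hK x
          gcongr
      _ = _ := by ring
  have h3 := H586.gs_Gw_le lam x
  have h4 : 0 ≤ Gw lam x ^ 2 := sq_nonneg _
  have h5 : (1 - tA (s1 + 9) (phi u x) * (1 - P (rs x))) ^ 2 ≤ 1 := by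
    have a3 := H.P_bd (rs x)
    have a4 := tA_nonneg (s1 + 9) (phi u x)
    have a5 := tA_le_one (s1 + 9) (phi u x)
    have : 0 ≤ tA (s1 + 9) (phi u x) * (1 - P (rs x)) := mul_nonneg a4 (by linarith)
    have : tA (s1 + 9) (phi u x) * (1 - P (rs x)) ≤ 1 := by nlinarith
    nlinarith
  have h6 : Gw lam x ^ 2 * gs (fun y => (1 - tA (s1 + 9) (phi u y) * (1 - P (rs y)))) x
      ≤ Gw lam x ^ 2 * (2 * K2 ^ 2 + 2 * K) := mul_le_mul_of_nonneg_left h2 h4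
  have h7 : (1 - tA (s1 + 9) (phi u x) * (1 - P (rs x))) ^ 2 * gs (Gw lam) x
      ≤ 1 * (lam ^ 2 * Gw lam x ^ 2) := by
    apply mul_le_mul h5 h3 (gs_nonneg _ _) (by norm_num)
  nlinarith [mul_nonneg h4 (by positivity : (0:ℝ) ≤ 2 * K2 ^ 2 + 2 * K)]

end pointwise

end Vale.Agent.P134.H967
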