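import Vale.Agent.P134.H967.Cfg

/-! Assembly of `StKEY`, part 2: the integrated inequalities. -/

set_option linter.all false

namespace Vale.Agent.P134.H967

open Vale.Agent.P134 Vale.Agent.P134.SM Vale.Agent.P134.LI Vale.Agent.P134.ASM
open MeasureTheory Filter Topology

/-- level weight -/
noncomputable def om (u : R3 → ℝ) (s1 : ℝ) (x : R3) : ℝ := wS (s1 + 9) (phi u x)

open Classical in
/-- complement of `iF` -/
noncomputable def nF (B : Set R3) (a : ℝ) (x : R3) : ℝ := if Far B a x then 0 else 1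

/-- the weight `h G²` -/
noncomputable def GG (e C lam : ℝ) (h : ℝ → ℝ) (rs : R3 → ℝ) (x : R3) : ℝ :=
  gg' e C h rs x * Gw lam x ^ 2

open Classical in
noncomputable def iS (u : R3 → ℝ) (s1 R1 : ℝ) (rs : R3 → ℝ) (x : R3) : ℝ :=
  if |phi u x| < s1 + 9 ∧ rs x < 4 * R1 then 1 else 0

/-- volume facts -/
structure VolB (Cv : ℝ) (B : Set R3) (lam : ℝ) : Prop where
  pos : 0 < Cv
  summ : Summable (fun b : B => Gw lam b ^ 2)
  int : Integrable (fun x : R3 => Gw lam x ^ 2)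
  le : ∀ R, 1 ≤ R → lam * R ≤ 1 →
    (∫ x, nF B R x * Gw lam x ^ 2) ≤ Cv * R ^ 3 * ∑' b : B, Gw lam b ^ 2

lemma nF_nonneg (B : Set R3) (a : ℝ) (x : R3) : 0 ≤ nF B a x := by unfold nF; split_ifs <;> norm_num
lemma nF_le_one (B : Set R3) (a : ℝ) (x : R3) : nF B a x ≤ 1 := by unfold nF; split_ifs <;> norm_num
lemma nF_one {B : Set R3} {a : ℝ} {x : R3} (h : ¬ Far B a x) : nF B a x = 1 := by
  unfold nF; rw [if_neg h]
lemma iF_one {B : Set R3} {a : ℝ} {x : R3} (h : Far B a x) : iF B a x = 1 := by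
  unfold iF; rw [if_pos h]
lemma Far_mono {B : Set R3} {a b : ℝ} {x : R3} (hab : a ≤ b) (h : Far B b x) : Far B a x :=
  fun c hc => hab.trans (h c hc)

open Classical in
lemma measurable_nF (B : Set R3) (r : ℝ) : Measurable (nF B r) := by
  unfold nF
  exact Measurable.ite (measurableSet_Far B r) measurable_const measurable_const

lemma iS_nonneg (u : R3 → ℝ) (s1 R1 : ℝ) (rs : R3 → ℝ) (x : R3) : 0 ≤ iS u s1 R1 rs x := by
  unfold iS; split_ifs <;> norm_num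
lemma iS_le_one (u : R3 → ℝ) (s1 R1 : ℝ) (rs : R3 → ℝ) (x : R3) : iS u s1 R1 rs x ≤ 1 := by
  unfold iS; split_ifs <;> norm_num

lemma int_of_le {f : R3 → ℝ} {lam K : ℝ} (hG : Integrable (fun x : R3 => Gw lam x ^ 2))
    (hf : Measurable f) (hb : ∀ x, |f x| ≤ K * Gw lam x ^ 2) : Integrable f :=
  (hG.const_mul K).mono' hf.aestronglyMeasurable (Eventually.of_forall fun x => by
    rw [Real.norm_eq_abs]; exact hb x)

lemma int_of_le' {f : R3 → ℝ} {lam K : ℝ} (hG : Integrable (fun x : R3 => Gw lam x ^ 2))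
    (hf : Measurable f) (h0 : ∀ x, 0 ≤ f x) (hb : ∀ x, f x ≤ K * Gw lam x ^ 2) : Integrable f :=
  int_of_le hG hf fun x => by rw [abs_of_nonneg (h0 x)]; exact hb x

lemma measurable_wn (f : R3 → ℝ) : Measurable (wn f) := by
  unfold wn gs
  exact (Finset.measurable_sum _ fun i _ => (measurable_pd f i).pow_const 2).sqrt

lemma measurable_gs (f : R3 → ℝ) : Measurable (gs f) := by
  unfold gs
  exact (Finset.measurable_sum _ fun i _ => (measurable_pd f i).pow_const 2)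

lemma measurable_hs (f : R3 → ℝ) : Measurable (SM.hs f) := by
  unfold SM.hs
  exact (Finset.measurable_sum _ fun i _ => Finset.measurable_sum _ fun j _ =>
    (measurable_pd _ i).pow_const 2)

lemma hs_nonneg (f : R3 → ℝ) (x : R3) : 0 ≤ SM.hs f x := by
  unfold SM.hs
  exact Finset.sum_nonneg fun _ _ => Finset.sum_nonneg fun _ _ => sq_nonneg _

section rows

variable {u : R3 → ℝ} {B : Set R3} {s1 e C L0 R1 lam ε T : ℝ} {h P : ℝ → ℝ} {rs : R3 → ℝ}
variable {Cv : ℝ}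

lemma qq0 (hu : HS u) (x : R3) : 0 ≤ qq u x := R3.qq_nonneg hu.toSol hu.lt x
lemma qq1 (u : R3 → ℝ) (x : R3) : qq u x ≤ 1 := R3.qq_le_one u x
lemma rr0 (u : R3 → ℝ) (x : R3) : 0 ≤ rr u x := wn_nonneg _ _
lemma rr1 (hu : HS u) (x : R3) : rr u x ≤ 1 := by
  have h2 := rr_sq u x
  nlinarith [qq0 hu x, rr0 u x]

lemma om0 (u : R3 → ℝ) (s1 : ℝ) (x : R3) : 0 ≤ om u s1 x := wS_nonneg _ _
lemma om1 (u : R3 → ℝ) (s1 : ℝ) (x : R3) : om u s1 x ≤ 1 := wS_le_one _ _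
lemma om_zero {x : R3} (h : s1 + 9 ≤ |phi u x|) : om u s1 x = 0 := wS_zero h

lemma m_om (hu : HS u) : Measurable (om u s1) :=
  ((wS_continuous _).comp (phi_cd hu).continuous).measurable
lemma m_rr (u : R3 → ℝ) : Measurable (rr u) := measurable_wn _
lemma m_qq (hu : HS u) : Measurable (qq u) := (qq_c1 (phi_cd hu)).continuous.measurable
lemma m_Gw (lam : ℝ) : Measurable (Gw lam) := (Gw_continuous lam).measurable

lemma gg'_cd (H : Cfg u B s1 e C L0 R1 lam ε T h P rs) : ContDiff ℝ 1 (gg' e C h rs) := by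
  unfold gg'
  exact H.h_cd.comp ((contDiff_const.mul (H.rs_cd.add contDiff_const)).add contDiff_const)

lemma GG_cd (H : Cfg u B s1 e C L0 R1 lam ε T h P rs) : ContDiff ℝ 1 (GG e C lam h rs) := by
  unfold GG
  exact (gg'_cd H).mul ((H586.Gw_cd lam).pow 2)

lemma arg_nonneg (H : Cfg u B s1 e C L0 R1 lam ε T h P rs) (x : R3) :
    0 ≤ (1 + e) * (rs x + 1) + C := by
  have := H.rs_nonneg x
  have := H.e_pos
  have := H.C_ge
  positivity

lemma gg'_nonneg (H : Cfg u B s1 e C L0 R1 lam ε T h P rs) (x : R3) : 0 ≤ gg' e C h rs x :=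
  H.h_nonneg _

lemma gg'_le (H : Cfg u B s1 e C L0 R1 lam ε T h P rs) (x : R3) : gg' e C h rs x ≤ h 0 :=
  H.h_anti (Set.mem_Ici.mpr le_rfl) (Set.mem_Ici.mpr (arg_nonneg H x)) (arg_nonneg H x)

lemma gg'_le_P (H : Cfg u B s1 e C L0 R1 lam ε T h P rs) (x : R3) :
    gg' e C h rs x ≤ ε * P (rs x) ^ 2 := H.h_le_P _ (H.rs_nonneg x)

lemma GG_nonneg (H : Cfg u B s1 e C L0 R1 lam ε T h P rs) (x : R3) : 0 ≤ GG e C lam h rs x :=
  mul_nonneg (gg'_nonneg H x) (sq_nonneg _)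

lemma GG_le (H : Cfg u B s1 e C L0 R1 lam ε T h P rs) (x : R3) :
    GG e C lam h rs x ≤ h 0 * Gw lam x ^ 2 :=
  mul_le_mul_of_nonneg_right (gg'_le H x) (sq_nonneg _)

lemma GG_le_P (H : Cfg u B s1 e C L0 R1 lam ε T h P rs) (x : R3) :
    GG e C lam h rs x ≤ ε * (P (rs x) ^ 2 * Gw lam x ^ 2) := by
  have := mul_le_mul_of_nonneg_right (gg'_le_P H x) (sq_nonneg (Gw lam x))
  unfold GG; linarith

lemma P2_le (H : Cfg u B s1 e C L0 R1 lam ε T h P rs) (t : ℝ) : P t ^ 2 ≤ 1 := by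
  have := H.P_bd t
  nlinarith

lemma GG_le_ε (H : Cfg u B s1 e C L0 R1 lam ε T h P rs) (x : R3) :
    GG e C lam h rs x ≤ ε * Gw lam x ^ 2 := by
  refine (GG_le_P H x).trans ?_
  have h1 := P2_le H (rs x)
  have h2 : 0 ≤ Gw lam x ^ 2 := sq_nonneg _
  have h3 := H.ε_pos
  have h4 : P (rs x) ^ 2 * Gw lam x ^ 2 ≤ 1 * Gw lam x ^ 2 := mul_le_mul_of_nonneg_right h1 h2
  nlinarith

lemma m_GG (H : Cfg u B s1 e C L0 R1 lam ε T h P rs) : Measurable (GG e C lam h rs) :=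
  (GG_cd H).continuous.measurable

lemma m_iS (H : Cfg u B s1 e C L0 R1 lam ε T h P rs) : Measurable (iS u s1 R1 rs) := by
  classical
  unfold iS
  apply Measurable.ite _ measurable_const measurable_const
  apply IsOpen.measurableSet
  exact (isOpen_lt (phi_cd H.hs).continuous.abs continuous_const).inter
    (isOpen_lt H.rs_cd.continuous continuous_const)

/-- `Vr` -/
lemma iS_le_nF (H : Cfg u B s1 e C L0 R1 lam ε T h P rs) (x : R3) :
    iS u s1 R1 rs x ≤ nF B (4 * R1 + 2 + 2 * L0) x := by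
  by_cases hx : |phi u x| < s1 + 9 ∧ rs x < 4 * R1
  · have h1 := H.rs_chd x (by linarith [hx.1])
    have h2 := abs_le.mp h1
    have h3 := H.R_ge
    have h4 := H.C_ge
    have h5 := H.cd_far x (4 * R1 + 2) (by linarith [H.T_ge]) (by linarith [hx.2])
    rw [nF_one h5]; exact iS_le_one _ _ _ _ _
  · have : iS u s1 R1 rs x = 0 := by unfold iS; rw [if_neg hx]
    rw [this]; exact nF_nonneg _ _ _

lemma int_iS (H : Cfg u B s1 e C L0 R1 lam ε T h P rs) (V : VolB Cv B lam) :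
    Integrable (fun x => iS u s1 R1 rs x * Gw lam x ^ 2) := by
  refine int_of_le' (K := 1) V.int ?_ ?_ ?_
  · exact ((m_iS H).mul ((m_Gw lam).pow_const 2))
  · exact fun x => mul_nonneg (iS_nonneg u s1 R1 rs x) (sq_nonneg _)
  · exact fun x => mul_le_mul_of_nonneg_right (iS_le_one u s1 R1 rs x) (sq_nonneg _)

lemma int_nF (V : VolB Cv B lam) (a : ℝ) : Integrable (fun x => nF B a x * Gw lam x ^ 2) := by
  refine int_of_le' (K := 1) V.int ?_ ?_ ?_
  · exact ((measurable_nF B a).mul ((m_Gw lam).pow_const 2))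
  · exact fun x => mul_nonneg (nF_nonneg B a x) (sq_nonneg _)
  · exact fun x => mul_le_mul_of_nonneg_right (nF_le_one B a x) (sq_nonneg _)

lemma IS_le (H : Cfg u B s1 e C L0 R1 lam ε T h P rs) (V : VolB Cv B lam) :
    (∫ x, iS u s1 R1 rs x * Gw lam x ^ 2)
      ≤ Cv * (4 * R1 + 2 + 2 * L0) ^ 3 * ∑' b : B, Gw lam b ^ 2 := by
  refine (integral_mono (int_iS H V) (int_nF V (4 * R1 + 2 + 2 * L0)) fun x => ?_).trans
    (V.le _ (by linarith [H.R_ge, H.L_ge]) H.lam_R)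
  exact mul_le_mul_of_nonneg_right (iS_le_nF H x) (sq_nonneg _)

lemma S_nonneg : 0 ≤ ∑' b : B, Gw lam b ^ 2 := tsum_nonneg fun b => sq_nonneg _

/-- constant `KV` -/
lemma IS_ε (H : Cfg u B s1 e C L0 R1 lam ε T h P rs) (V : VolB Cv B lam) :
    (1001 / 1000 * (ε / R1 ^ 3) + 1001 * lam ^ 2) * (∫ x, iS u s1 R1 rs x * Gw lam x ^ 2)
      ≤ ε * (Cv * (2 * (6 + 2 * L0) ^ 3 + 1)) * ∑' b : B, Gw lam b ^ 2 := by
  have hS : 0 ≤ ∑' b : B, Gw lam b ^ 2 := S_nonneg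
  have hR := H.R_ge
  have hL := H.L_ge
  have hε := H.ε_pos
  have hCv := V.pos
  have h1 := IS_le H V
  have hc : 0 ≤ 1001 / 1000 * (ε / R1 ^ 3) + 1001 * lam ^ 2 := by positivity
  have h2 := mul_le_mul_of_nonneg_left h1 hc
  refine h2.trans ?_
  have h3 : (4 * R1 + 2 + 2 * L0) ^ 3 ≤ ((6 + 2 * L0) * R1) ^ 3 := by
    apply pow_le_pow_left₀ (by linarith)
    nlinarith
  have h4 : ε / R1 ^ 3 * (4 * R1 + 2 + 2 * L0) ^ 3 ≤ ε * (6 + 2 * L0) ^ 3 := by
    calc ε / R1 ^ 3 * (4 * R1 + 2 + 2 * L0) ^ 3 ≤ ε / R1 ^ 3 * ((6 + 2 * L0) * R1) ^ 3 := by gcongr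
      _ = ε * (6 + 2 * L0) ^ 3 := by
        rw [mul_pow]; field_simp
  have h5 : (1001 / 1000 * (ε / R1 ^ 3) + 1001 * lam ^ 2) * (4 * R1 + 2 + 2 * L0) ^ 3
      ≤ ε * (2 * (6 + 2 * L0) ^ 3 + 1) := by
    have h6 := H.lam_V
    have h7 : 0 ≤ ε * (6 + 2 * L0) ^ 3 := by positivity
    nlinarith
  calc (1001 / 1000 * (ε / R1 ^ 3) + 1001 * lam ^ 2) * (Cv * (4 * R1 + 2 + 2 * L0) ^ 3 *
          ∑' b : B, Gw lam b ^ 2)
      = ((1001 / 1000 * (ε / R1 ^ 3) + 1001 * lam ^ 2) * (4 * R1 + 2 + 2 * L0) ^ 3) *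
          (Cv * ∑' b : B, Gw lam b ^ 2) := by ring
    _ ≤ (ε * (2 * (6 + 2 * L0) ^ 3 + 1)) * (Cv * ∑' b : B, Gw lam b ^ 2) :=
        mul_le_mul_of_nonneg_right h5 (mul_nonneg hCv.le hS)
    _ = _ := by ring

/-! ### Row 1 -/

lemma row1_pt (H : Cfg u B s1 e C L0 R1 lam ε T h P rs) (x : R3) :
    om u s1 x * rr u x * gs (et u s1 lam P rs) x
      ≤ 1001 / 1000 * (1 + 10 * e + ε) * (om u s1 x * rr u x * GG e C lam h rs x)
        + (1001 / 1000 * (ε / R1 ^ 3) + 1001 * lam ^ 2) * (iS u s1 R1 rs x * Gw lam x ^ 2) := by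
  have hG : 0 ≤ Gw lam x ^ 2 := sq_nonneg _
  have hom := om0 u s1 x
  have hom1 := om1 u s1 x
  have hr := rr0 u x
  have hr1 := rr1 H.hs x
  have hg := GG_nonneg H x
  have hi := iS_nonneg u s1 R1 rs x
  have he := H.e_pos
  have hε := H.ε_pos
  have hR := H.R_ge
  have hor : om u s1 x * rr u x ≤ 1 := by nlinarith
  have hor0 : 0 ≤ om u s1 x * rr u x := mul_nonneg hom hr
  have hc : 0 ≤ 1001 / 1000 * (ε / R1 ^ 3) + 1001 * lam ^ 2 := by positivity
  by_cases hx : |phi u x| < s1 + 9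
  swap
  · rw [om_zero (not_lt.mp hx)]
    have : 0 ≤ (1001 / 1000 * (ε / R1 ^ 3) + 1001 * lam ^ 2) * (iS u s1 R1 rs x * Gw lam x ^ 2) :=
      mul_nonneg hc (mul_nonneg hi hG)
    simpa using this
  have h1 := gs_et_slab H hx
  have hP2 := P2_le H (rs x)
  have h2 := mul_le_mul_of_nonneg_left h1 hor0
  refine h2.trans ?_
  by_cases hr4 : rs x < 4 * R1
  · have hiS : iS u s1 R1 rs x = 1 := by unfold iS; rw [if_pos ⟨hx, hr4⟩]
    rw [hiS, one_mul]
    have h3 := H.P_deriv2 (rs x) (H.rs_nonneg x)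
    have h4 : deriv P (rs x) ^ 2 ≤ (1 + 10 * e + ε) * gg' e C h rs x + ε / R1 ^ 3 := h3
    have e1 : GG e C lam h rs x = gg' e C h rs x * Gw lam x ^ 2 := rfl
    have h5 : Gw lam x ^ 2 * deriv P (rs x) ^ 2
        ≤ (1 + 10 * e + ε) * GG e C lam h rs x + ε / R1 ^ 3 * Gw lam x ^ 2 := by
      have := mul_le_mul_of_nonneg_left h4 hG
      rw [e1]; linarith
    have h6 : P (rs x) ^ 2 * (lam ^ 2 * Gw lam x ^ 2) ≤ 1 * (lam ^ 2 * Gw lam x ^ 2) :=
      mul_le_mul_of_nonneg_right hP2 (by positivity)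
    have h7 : (1 + 1 / 1000) * (Gw lam x ^ 2 * deriv P (rs x) ^ 2)
        + 1001 * (P (rs x) ^ 2 * (lam ^ 2 * Gw lam x ^ 2))
        ≤ 1001 / 1000 * (1 + 10 * e + ε) * GG e C lam h rs x
          + (1001 / 1000 * (ε / R1 ^ 3) + 1001 * lam ^ 2) * Gw lam x ^ 2 := by
      nlinarith
    have h8 := mul_le_mul_of_nonneg_left h7 hor0
    refine h8.trans ?_
    have h9 : om u s1 x * rr u x * ((1001 / 1000 * (ε / R1 ^ 3) + 1001 * lam ^ 2) * Gw lam x ^ 2)
        ≤ 1 * ((1001 / 1000 * (ε / R1 ^ 3) + 1001 * lam ^ 2) * Gw lam x ^ 2) :=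
      mul_le_mul_of_nonneg_right hor (mul_nonneg hc hG)
    linarith
  · have h4 := not_lt.mp hr4
    have hd : deriv P (rs x) = 0 := P_deriv_zero H h4
    have hz : P (rs x) = 0 := H.P_zero _ h4
    rw [hd, hz]
    have hiS : iS u s1 R1 rs x = 0 := by
      unfold iS; rw [if_neg]; exact fun hh => hr4 hh.2
    rw [hiS]
    have : 0 ≤ 1001 / 1000 * (1 + 10 * e + ε) * (om u s1 x * rr u x * GG e C lam h rs x) := by
      positivity
    simpa using this

lemma int_Y (H : Cfg u B s1 e C L0 R1 lam ε T h P rs) (V : VolB Cv B lam) :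
    Integrable (fun x => om u s1 x * rr u x * GG e C lam h rs x) := by
  refine int_of_le' (K := h 0) V.int ?_ ?_ ?_
  · exact (((m_om H.hs).mul (m_rr u)).mul (m_GG H))
  · exact fun x => mul_nonneg (mul_nonneg (om0 _ _ _) (rr0 _ _)) (GG_nonneg H x)
  intro x
  have hom := om0 u s1 x
  have hom1 := om1 u s1 x
  have hr := rr0 u x
  have hr1 := rr1 H.hs x
  have hg := GG_nonneg H x
  have hor : om u s1 x * rr u x ≤ 1 := by nlinarith
  have := GG_le H x
  nlinarith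

lemma row1 (H : Cfg u B s1 e C L0 R1 lam ε T h P rs) (V : VolB Cv B lam) :
    (∫ x, om u s1 x * rr u x * gs (et u s1 lam P rs) x)
      ≤ 1001 / 1000 * (1 + 10 * e + ε) * (∫ x, om u s1 x * rr u x * GG e C lam h rs x)
        + ε * (Cv * (2 * (6 + 2 * L0) ^ 3 + 1)) * ∑' b : B, Gw lam b ^ 2 := by
  have h1 : (∫ x, om u s1 x * rr u x * gs (et u s1 lam P rs) x)
      ≤ ∫ x, (1001 / 1000 * (1 + 10 * e + ε) * (om u s1 x * rr u x * GG e C lam h rs x)
        + (1001 / 1000 * (ε / R1 ^ 3) + 1001 * lam ^ 2) * (iS u s1 R1 rs x * Gw lam x ^ 2)) := by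
    apply integral_mono_of_nonneg
    · exact Eventually.of_forall fun x => mul_nonneg (mul_nonneg (om0 _ _ _) (rr0 _ _))
        (gs_nonneg _ _)
    · exact ((int_Y H V).const_mul _).add ((int_iS H V).const_mul _)
    · exact Eventually.of_forall fun x => row1_pt H x
  rw [integral_add ((int_Y H V).const_mul _) ((int_iS H V).const_mul _), integral_const_mul,
    integral_const_mul] at h1
  have h2 := IS_ε H V
  linarith

end rows

end Vale.Agent.P134.H967
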