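import Vale.Agent.P134.H967.Rows

/-! Assembly of `StKEY`, part 3: rows 2 - 6. -/

set_option linter.all false

namespace Vale.Agent.P134.H967

open Vale.Agent.P134 Vale.Agent.P134.SM Vale.Agent.P134.LI Vale.Agent.P134.ASM
open MeasureTheory Filter Topology

/-- product bound for `wn` -/
lemma wn_mul_le {a b : R3 → ℝ} (ha : ContDiff ℝ 1 a) (hb : ContDiff ℝ 1 b) (x : R3) :
    wn (fun y => a y * b y) x ≤ |a x| * wn b x + |b x| * wn a x := by
  have h1 : gs (fun y => a y * b y) x ≤ (|a x| * wn b x + |b x| * wn a x) ^ 2 := by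
    unfold gs
    have e1 : ∀ i, pd i (fun y => a y * b y) x = pd i a x * b x + a x * pd i b x := by
      intro i
      rw [pd_mul (diff1 ha x) (diff1 hb x)]; ring
    simp_rw [e1]
    have e2 : ∑ i : Fin 3, (pd i a x * b x + a x * pd i b x) ^ 2
        = a x ^ 2 * gs b x + b x ^ 2 * gs a x + 2 * (a x * b x) * ∑ i, pd i a x * pd i b x := by
      unfold gs
      rw [Finset.mul_sum, Finset.mul_sum, Finset.mul_sum, ← Finset.sum_add_distrib,
        ← Finset.sum_add_distrib]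
      exact Finset.sum_congr rfl fun i _ => by ring
    rw [e2]
    have cs := Finset.sum_mul_sq_le_sq_mul_sq Finset.univ (fun i => pd i a x) (fun i => pd i b x)
    have cs' : (∑ i, pd i a x * pd i b x) ^ 2 ≤ (wn a x * wn b x) ^ 2 := by
      rw [mul_pow, wn_sq, wn_sq]; exact cs
    have h2 : |∑ i, pd i a x * pd i b x| ≤ wn a x * wn b x :=
      abs_le_of_sq_le_sq cs' (mul_nonneg (wn_nonneg _ _) (wn_nonneg _ _))
    have h3 : 2 * (a x * b x) * ∑ i, pd i a x * pd i b x
        ≤ 2 * (|a x| * |b x|) * (wn a x * wn b x) := by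
      calc 2 * (a x * b x) * ∑ i, pd i a x * pd i b x
          ≤ |2 * (a x * b x) * ∑ i, pd i a x * pd i b x| := le_abs_self _
        _ = 2 * (|a x| * |b x|) * |∑ i, pd i a x * pd i b x| := by
            rw [abs_mul, abs_mul, abs_mul, abs_of_nonneg (by norm_num : (0:ℝ) ≤ 2)]
        _ ≤ _ := mul_le_mul_of_nonneg_left h2 (by positivity)
    rw [← wn_sq, ← wn_sq, ← sq_abs (a x), ← sq_abs (b x)]
    nlinarith
  unfold wn
  apply Real.sqrt_le_iff.mpr
  exact ⟨add_nonneg (mul_nonneg (abs_nonneg _) (wn_nonneg _ _))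
    (mul_nonneg (abs_nonneg _) (wn_nonneg _ _)), h1⟩

lemma wn_comp1 {f : ℝ → ℝ} {g : R3 → ℝ} (hf : ContDiff ℝ 1 f) (hg : ContDiff ℝ 1 g) (x : R3) :
    wn (fun y => f (g y)) x = |deriv f (g x)| * wn g x := by
  have e : gs (fun y => f (g y)) x = (deriv f (g x)) ^ 2 * gs g x := by
    unfold gs
    rw [Finset.mul_sum]
    exact Finset.sum_congr rfl fun i _ => by rw [pd_comp1 hf hg]; ring
  unfold wn
  rw [e, Real.sqrt_mul (sq_nonneg _), Real.sqrt_sq_eq_abs]

section rows

variable {u : R3 → ℝ} {B : Set R3} {s1 e C L0 R1 lam ε T : ℝ} {h P : ℝ → ℝ} {rs : R3 → ℝ}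
variable {Cv : ℝ}

/-- `|D(Gw²)| ≤ 2 lam Gw²` -/
lemma wn_Gw2 (hl : 0 < lam) (x : R3) : wn (fun y => Gw lam y ^ 2) x ≤ 2 * lam * Gw lam x ^ 2 := by
  have e : wn (fun y => Gw lam y ^ 2) x = |2 * Gw lam x| * wn (Gw lam) x := by
    have h1 := wn_comp1 (f := fun t => t ^ 2) (by fun_prop) (H586.Gw_cd lam) x
    rw [h1]
    congr 2
    simp
  have h2 := H586.gs_Gw_le lam x
  have hG := (H586.Gw_pos lam x)
  have h3 : wn (Gw lam) x ≤ lam * Gw lam x := by
    unfold wn
    apply Real.sqrt_le_iff.mpr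
    exact ⟨by positivity, by rw [mul_pow]; exact h2⟩
  rw [e, abs_of_pos (by positivity)]
  nlinarith

lemma wn_gg' (H : Cfg u B s1 e C L0 R1 lam ε T h P rs) (x : R3) :
    wn (gg' e C h rs) x = |deriv h ((1 + e) * (rs x + 1) + C)| * ((1 + e) * wn rs x) := by
  have hin : ContDiff ℝ 1 fun y => (1 + e) * (rs y + 1) + C :=
    (contDiff_const.mul (H.rs_cd.add contDiff_const)).add contDiff_const
  have h1 := wn_comp1 H.h_cd hin x
  have e1 : wn (gg' e C h rs) x = wn (fun y => h ((1 + e) * (rs y + 1) + C)) x := rfl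
  rw [e1, h1]
  congr 1
  have h2 := wn_comp1 (f := fun t => (1 + e) * (t + 1) + C) (by fun_prop) H.rs_cd x
  have e2 : deriv (fun t : ℝ => (1 + e) * (t + 1) + C) (rs x) = 1 + e := by
    have : HasDerivAt (fun t : ℝ => (1 + e) * (t + 1) + C) ((1 + e) * 1) (rs x) :=
      (((hasDerivAt_id _).add_const _).const_mul _).add_const _
    rw [this.deriv, mul_one]
  rw [e2, abs_of_pos (by linarith [H.e_pos])] at h2
  exact h2

lemma h_deriv_zero (H : Cfg u B s1 e C L0 R1 lam ε T h P rs) {t : ℝ} (ht : R1 ≤ t) :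
    deriv h t = 0 := by
  apply IsLocalMin.deriv_eq_zero
  apply Eventually.of_forall
  intro s
  rw [H.h_zero t ht]; exact H.h_nonneg s

lemma wn_GG (H : Cfg u B s1 e C L0 R1 lam ε T h P rs) (x : R3) :
    wn (GG e C lam h rs) x ≤ gg' e C h rs x * (2 * lam * Gw lam x ^ 2)
      + Gw lam x ^ 2 * (|deriv h ((1 + e) * (rs x + 1) + C)| * ((1 + e) * wn rs x)) := by
  have h1 := wn_mul_le (gg'_cd H) ((H586.Gw_cd lam).pow 2) x
  have e1 : wn (GG e C lam h rs) x = wn (fun y => gg' e C h rs y * Gw lam y ^ 2) x := rfl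
  rw [e1]
  refine h1.trans ?_
  rw [wn_gg' H, abs_of_nonneg (gg'_nonneg H x), abs_of_nonneg (sq_nonneg (Gw lam x))]
  have h2 := mul_le_mul_of_nonneg_left (wn_Gw2 H.lam_pos x) (gg'_nonneg H x)
  have e2 : wn (fun y => Gw lam y ^ 2) x = wn (fun x => Gw lam x ^ 2) x := rfl
  linarith

/-- on the slab -/
lemma wn_GG_slab (H : Cfg u B s1 e C L0 R1 lam ε T h P rs) {x : R3} (hx : |phi u x| < s1 + 9) :
    wn (GG e C lam h rs) x ≤ (2 * lam + 1001 / 1000 * ε) * GG e C lam h rs x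
      + 1001 / 1000 * (ε / R1 ^ 3) * (iS u s1 R1 rs x * Gw lam x ^ 2) := by
  refine (wn_GG H x).trans ?_
  have hG : 0 ≤ Gw lam x ^ 2 := sq_nonneg _
  have hε := H.ε_pos
  have hR := H.R_ge
  have hg := gg'_nonneg H x
  have he := H.e_pos
  have he' := H.e_le
  have e1 : GG e C lam h rs x = gg' e C h rs x * Gw lam x ^ 2 := rfl
  have hrs1 : wn rs x ≤ 1 := by
    unfold wn
    apply Real.sqrt_le_iff.mpr
    exact ⟨by norm_num, by simpa using H.rs_gs x (by linarith)⟩
  have hrs0 := wn_nonneg rs x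
  by_cases hr4 : rs x < 4 * R1
  · have hiS : iS u s1 R1 rs x = 1 := by unfold iS; rw [if_pos ⟨hx, hr4⟩]
    rw [hiS, e1]
    have h2 := H.h_deriv _ (arg_nonneg H x)
    have h3 : |deriv h ((1 + e) * (rs x + 1) + C)| ≤ ε * gg' e C h rs x + ε / R1 ^ 3 := h2
    have h4 : |deriv h ((1 + e) * (rs x + 1) + C)| * ((1 + e) * wn rs x)
        ≤ (ε * gg' e C h rs x + ε / R1 ^ 3) * (1001 / 1000) := by
      apply mul_le_mul h3 _ (by positivity) (by positivity)
      nlinarith
    have h5 := mul_le_mul_of_nonneg_left h4 hG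
    linarith
  · have h4 : R1 ≤ (1 + e) * (rs x + 1) + C := by
      have := not_lt.mp hr4
      have := H.C_ge
      nlinarith
    rw [h_deriv_zero H h4]
    have hiS : iS u s1 R1 rs x = 0 := by
      unfold iS; rw [if_neg]; exact fun hh => hr4 hh.2
    rw [hiS, e1, abs_zero, zero_mul, mul_zero, add_zero, zero_mul, mul_zero, add_zero]
    have : 0 ≤ gg' e C h rs x * Gw lam x ^ 2 := mul_nonneg hg hG
    nlinarith

/-- global crude bound -/
lemma wn_GG_glob (H : Cfg u B s1 e C L0 R1 lam ε T h P rs) :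
    ∃ K : ℝ, 0 ≤ K ∧ ∀ x, wn (GG e C lam h rs) x ≤ K * Gw lam x ^ 2 := by
  obtain ⟨K, hK⟩ := H.rs_K
  have hK0 : 0 ≤ K := (gs_nonneg rs 0).trans (hK 0)
  have hε := H.ε_pos
  have hR := H.R_ge
  have he := H.e_pos
  have hh0 := H.h_nonneg 0
  have hl := H.lam_pos
  refine ⟨h 0 * (2 * lam) + (ε * h 0 + ε / R1 ^ 3) * ((1 + e) * Real.sqrt K), by positivity,
    fun x => (wn_GG H x).trans ?_⟩
  have hG : 0 ≤ Gw lam x ^ 2 := sq_nonneg _
  have hg := gg'_nonneg H x
  have hg1 := gg'_le H x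
  have hw : wn rs x ≤ Real.sqrt K := Real.sqrt_le_sqrt (hK x)
  have hw0 := wn_nonneg rs x
  have h2 := H.h_deriv _ (arg_nonneg H x)
  have h3 : |deriv h ((1 + e) * (rs x + 1) + C)| ≤ ε * h 0 + ε / R1 ^ 3 := by
    refine h2.trans ?_
    have : h ((1 + e) * (rs x + 1) + C) ≤ h 0 := hg1
    nlinarith
  have h4 : |deriv h ((1 + e) * (rs x + 1) + C)| * ((1 + e) * wn rs x)
      ≤ (ε * h 0 + ε / R1 ^ 3) * ((1 + e) * Real.sqrt K) := by
    apply mul_le_mul h3 _ (by positivity) (by positivity)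
    exact mul_le_mul_of_nonneg_left hw (by positivity)
  have h5 := mul_le_mul_of_nonneg_left h4 hG
  have h6 : gg' e C h rs x * (2 * lam * Gw lam x ^ 2) ≤ h 0 * (2 * lam * Gw lam x ^ 2) :=
    mul_le_mul_of_nonneg_right hg1 (by positivity)
  linarith

lemma lap_abs (hu : HS u) (x : R3) : |lap (phi u) x| ≤ 3 / 2 * qq u x := by
  rw [lap_phi hu.toSol hu.lt x, abs_neg, abs_mul, abs_mul, abs_of_nonneg (Real.sqrt_nonneg 2),
    abs_of_nonneg (qq0 hu x)]
  have h1 : Real.sqrt 2 ≤ 3 / 2 := by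
    rw [Real.sqrt_le_left (by norm_num)]; norm_num
  have h2 := (hu.lt x).le
  have h3 := qq0 hu x
  have h4 : Real.sqrt 2 * |u x| ≤ 3 / 2 * 1 :=
    mul_le_mul h1 h2 (abs_nonneg _) (by norm_num)
  calc _ ≤ 3 / 2 * 1 * qq u x := mul_le_mul_of_nonneg_right h4 h3
    _ = _ := by ring

/-! ### Integrabilities -/

lemma int_GF (H : Cfg u B s1 e C L0 R1 lam ε T h P rs) (V : VolB Cv B lam) {F : R3 → ℝ}
    (hF : Measurable F) (h0 : ∀ x, 0 ≤ F x) (h1 : ∀ x, F x ≤ 1) :
    Integrable (fun x => F x * GG e C lam h rs x) := by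
  refine int_of_le' (K := h 0) V.int ?_ ?_ ?_
  · exact hF.mul (m_GG H)
  · exact fun x => mul_nonneg (h0 x) (GG_nonneg H x)
  intro x
  have := GG_le H x
  have := GG_nonneg H x
  have := h0 x
  have := h1 x
  nlinarith

lemma qq_nonneg' (hu : HS u) (x : R3) : 0 ≤ qq u x := qq0 hu x

/-! ### Row 2 : `Y ≤ X9 + Q0` -/

lemma row2 (H : Cfg u B s1 e C L0 R1 lam ε T h P rs) (V : VolB Cv B lam) :
    (∫ x, om u s1 x * rr u x * GG e C lam h rs x)
      ≤ (∫ x, om u s1 x * gs (phi u) x * GG e C lam h rs x)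
        + ∫ x, om u s1 x * qq u x * GG e C lam h rs x := by
  have i1 : Integrable (fun x => om u s1 x * gs (phi u) x * GG e C lam h rs x) := by
    apply int_GF H V ((m_om H.hs).mul (measurable_gs _))
    · exact fun x => mul_nonneg (om0 _ _ _) (gs_nonneg _ _)
    · intro x
      exact mul_le_one₀ (om1 _ _ _) (gs_nonneg _ _) ((stALG u H.hs).2.1 x)
  have i2 : Integrable (fun x => om u s1 x * qq u x * GG e C lam h rs x) := by
    apply int_GF H V ((m_om H.hs).mul (m_qq H.hs))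
    · exact fun x => mul_nonneg (om0 _ _ _) (qq0 H.hs _)
    · intro x
      exact mul_le_one₀ (om1 _ _ _) (qq0 H.hs _) (qq1 u x)
  rw [← integral_add i1 i2]
  apply integral_mono (int_Y H V) (i1.add i2)
  intro x
  show om u s1 x * rr u x * GG e C lam h rs x ≤ om u s1 x * gs (phi u) x * GG e C lam h rs x
    + om u s1 x * qq u x * GG e C lam h rs x
  have e1 : qq u x = 1 - gs (phi u) x := rfl
  have h1 := rr1 H.hs x
  have h2 := mul_nonneg (om0 u s1 x) (GG_nonneg H x)
  rw [e1]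
  nlinarith

/-! ### Rows 3, 4 -/

lemma row4_pt (H : Cfg u B s1 e C L0 R1 lam ε T h P rs) (x : R3) :
    om u s1 x * (|lap (phi u) x| * GG e C lam h rs x + wn (GG e C lam h rs) x)
      ≤ 3 / 2 * (om u s1 x * qq u x * GG e C lam h rs x)
        + (2 * lam + 1001 / 1000 * ε) * (om u s1 x * GG e C lam h rs x)
        + 1001 / 1000 * (ε / R1 ^ 3) * (iS u s1 R1 rs x * Gw lam x ^ 2) := by
  have hG : 0 ≤ Gw lam x ^ 2 := sq_nonneg _
  have hom := om0 u s1 x
  have hom1 := om1 u s1 x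
  have hg := GG_nonneg H x
  have hi := iS_nonneg u s1 R1 rs x
  have hε := H.ε_pos
  have hR := H.R_ge
  have hc : 0 ≤ 1001 / 1000 * (ε / R1 ^ 3) := by positivity
  by_cases hx : |phi u x| < s1 + 9
  swap
  · rw [om_zero (not_lt.mp hx)]
    have := mul_nonneg hc (mul_nonneg hi hG)
    simpa using this
  have h1 := lap_abs H.hs x
  have h2 := wn_GG_slab H hx
  have h3 : |lap (phi u) x| * GG e C lam h rs x ≤ 3 / 2 * qq u x * GG e C lam h rs x :=
    mul_le_mul_of_nonneg_right h1 hg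
  have h4 := mul_le_mul_of_nonneg_left (add_le_add h3 h2) hom
  have h5 : om u s1 x * (1001 / 1000 * (ε / R1 ^ 3) * (iS u s1 R1 rs x * Gw lam x ^ 2))
      ≤ 1 * (1001 / 1000 * (ε / R1 ^ 3) * (iS u s1 R1 rs x * Gw lam x ^ 2)) :=
    mul_le_mul_of_nonneg_right hom1 (mul_nonneg hc (mul_nonneg hi hG))
  linarith

lemma row34 (H : Cfg u B s1 e C L0 R1 lam ε T h P rs) (V : VolB Cv B lam) :
    (∫ x, om u s1 x * gs (phi u) x * GG e C lam h rs x)
      ≤ 100091 / 100000 * (∫ x, wS s1 (phi u x) * (gs (phi u) x * GG e C lam h rs x))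
        + 10 * (3 / 2 * (∫ x, om u s1 x * qq u x * GG e C lam h rs x)
          + (2 * lam + 1001 / 1000 * ε) * (∫ x, om u s1 x * GG e C lam h rs x)
          + ε * (Cv * (2 * (6 + 2 * L0) ^ 3 + 1)) * ∑' b : B, Gw lam b ^ 2) := by
  obtain ⟨K, hK0, hK⟩ := wn_GG_glob H
  have hs1 := H.s1_ge
  have hlev := LEV (phi u) (GG e C lam h rs) s1 9 lam (max (max K (h 0)) (3 / 2)) (phi_cd H.hs)
    (stALG u H.hs).2.1 (by linarith) (by norm_num) H.lam_pos (GG_cd H)
    (fun x => ⟨GG_nonneg H x, (GG_le H x).trans (mul_le_mul_of_nonneg_right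
      ((le_max_right _ _).trans (le_max_left _ _)) (sq_nonneg _))⟩)
    (fun x => (hK x).trans (mul_le_mul_of_nonneg_right
      ((le_max_left _ _).trans (le_max_left _ _)) (sq_nonneg _)))
    (fun x _ => (lap_abs H.hs x).trans (by
      have := qq1 u x
      have := le_max_right (max K (h 0)) (3 / 2)
      linarith))
  have e1 : (∫ x, om u s1 x * gs (phi u) x * GG e C lam h rs x)
      = ∫ x, wS (s1 + 9) (phi u x) * (gs (phi u) x * GG e C lam h rs x) := by
    congr 1; funext x; unfold om; ring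
  rw [e1]
  refine hlev.trans ?_
  have hX0 : 0 ≤ ∫ x, wS s1 (phi u x) * (gs (phi u) x * GG e C lam h rs x) :=
    integral_nonneg fun x => mul_nonneg (wS_nonneg _ _) (mul_nonneg (gs_nonneg _ _) (GG_nonneg H x))
  have hc : (2 * (s1 + 9) - 1) / (2 * s1 - 1) ≤ 100091 / 100000 := by
    rw [div_le_div_iff₀ (by linarith) (by norm_num)]
    linarith
  have h1 := mul_le_mul_of_nonneg_right hc hX0
  have i1 : Integrable (fun x => om u s1 x * qq u x * GG e C lam h rs x) := by
    apply int_GF H V ((m_om H.hs).mul (m_qq H.hs))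
    · exact fun x => mul_nonneg (om0 _ _ _) (qq0 H.hs _)
    · intro x
      exact mul_le_one₀ (om1 _ _ _) (qq0 H.hs _) (qq1 u x)
  have i2 : Integrable (fun x => om u s1 x * GG e C lam h rs x) :=
    int_GF H V (m_om H.hs) (om0 _ _) (om1 _ _)
  have h2 : (∫ x, wS (s1 + 9) (phi u x) * (|lap (phi u) x| * GG e C lam h rs x
        + wn (GG e C lam h rs) x))
      ≤ ∫ x, (3 / 2 * (om u s1 x * qq u x * GG e C lam h rs x)
        + (2 * lam + 1001 / 1000 * ε) * (om u s1 x * GG e C lam h rs x)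
        + 1001 / 1000 * (ε / R1 ^ 3) * (iS u s1 R1 rs x * Gw lam x ^ 2)) := by
    apply integral_mono_of_nonneg
    · exact Eventually.of_forall fun x => mul_nonneg (wS_nonneg _ _) (add_nonneg
        (mul_nonneg (abs_nonneg _) (GG_nonneg H x)) (wn_nonneg _ _))
    · exact ((i1.const_mul _).add (i2.const_mul _)).add ((int_iS H V).const_mul _)
    · exact Eventually.of_forall fun x => row4_pt H x
  have j1 : Integrable (fun x => 3 / 2 * (om u s1 x * qq u x * GG e C lam h rs x)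
        + (2 * lam + 1001 / 1000 * ε) * (om u s1 x * GG e C lam h rs x)) :=
    (i1.const_mul _).add (i2.const_mul _)
  rw [integral_add j1 ((int_iS H V).const_mul _),
    integral_add (i1.const_mul _) (i2.const_mul _), integral_const_mul, integral_const_mul,
    integral_const_mul] at h2
  have h3 := IS_ε H V
  have h4 : 0 ≤ ∫ x, iS u s1 R1 rs x * Gw lam x ^ 2 :=
    integral_nonneg fun x => mul_nonneg (iS_nonneg _ _ _ _ _) (sq_nonneg _)
  have h5 : 1001 / 1000 * (ε / R1 ^ 3) * (∫ x, iS u s1 R1 rs x * Gw lam x ^ 2)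
      ≤ (1001 / 1000 * (ε / R1 ^ 3) + 1001 * lam ^ 2) * (∫ x, iS u s1 R1 rs x * Gw lam x ^ 2) := by
    apply mul_le_mul_of_nonneg_right _ h4
    nlinarith [sq_nonneg lam]
  norm_num at h1 h2 ⊢
  linarith

/-! ### Row 5 -/

lemma rr_ge (H : Cfg u B s1 e C L0 R1 lam ε T h P rs) {x : R3} (hx : |phi u x| ≤ s1 + 10)
    (hf : Far B 1 x) : 99 / 100 ≤ rr u x := by
  have h1 := H.q_le x hx hf
  have h2 := rr_sq u x
  have h3 := rr0 u x
  nlinarith

lemma row5 (H : Cfg u B s1 e C L0 R1 lam ε T h P rs) (V : VolB Cv B lam) :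
    (∫ x, om u s1 x * GG e C lam h rs x)
      ≤ 102 / 100 * (∫ x, om u s1 x * rr u x * GG e C lam h rs x)
        + ε * Cv * ∑' b : B, Gw lam b ^ 2 := by
  have i1 := int_Y H V
  have i2 : Integrable (fun x => om u s1 x * GG e C lam h rs x) :=
    int_GF H V (m_om H.hs) (om0 _ _) (om1 _ _)
  have i3 := int_nF V 1 (B := B)
  have hε := H.ε_pos
  have h1 : (∫ x, om u s1 x * GG e C lam h rs x)
      ≤ ∫ x, (102 / 100 * (om u s1 x * rr u x * GG e C lam h rs x)
        + ε * (nF B 1 x * Gw lam x ^ 2)) := by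
    apply integral_mono i2 ((i1.const_mul _).add (i3.const_mul _))
    intro x
    show om u s1 x * GG e C lam h rs x ≤ 102 / 100 * (om u s1 x * rr u x * GG e C lam h rs x)
        + ε * (nF B 1 x * Gw lam x ^ 2)
    have hG : 0 ≤ Gw lam x ^ 2 := sq_nonneg _
    have hom := om0 u s1 x
    have hom1 := om1 u s1 x
    have hg := GG_nonneg H x
    have hr := rr0 u x
    have hn := nF_nonneg B 1 x
    by_cases hx : |phi u x| < s1 + 9
    swap
    · rw [om_zero (not_lt.mp hx)]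
      have := mul_nonneg hε.le (mul_nonneg hn hG)
      simpa using this
    by_cases hf : Far B 1 x
    · have h1 := rr_ge H (by linarith) hf
      have h2 := mul_nonneg hom hg
      have h3 := mul_nonneg hε.le (mul_nonneg hn hG)
      nlinarith
    · rw [nF_one hf]
      have h2 := GG_le_ε H x
      have h3 : om u s1 x * GG e C lam h rs x ≤ 1 * (ε * Gw lam x ^ 2) :=
        mul_le_mul hom1 h2 hg (by norm_num)
      have h4 := mul_nonneg (mul_nonneg hom hr) hg
      linarith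
  rw [integral_add (i1.const_mul _) (i3.const_mul _), integral_const_mul, integral_const_mul] at h1
  have h2 := V.le 1 le_rfl (by have := H.lam_le; have := H.ε_le; linarith)
  have h3 := mul_le_mul_of_nonneg_left h2 hε.le
  linarith

/-! ### Row 6 -/

lemma et2_slab (H : Cfg u B s1 e C L0 R1 lam ε T h P rs) {x : R3} (hx : |phi u x| ≤ s1 + 9) :
    et u s1 lam P rs x ^ 2 = P (rs x) ^ 2 * Gw lam x ^ 2 := by
  rw [et_slab H hx]; ring

lemma int_et (H : Cfg u B s1 e C L0 R1 lam ε T h P rs) (V : VolB Cv B lam) {F : R3 → ℝ} {K : ℝ}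
    (hF : Measurable F) (h0 : ∀ x, 0 ≤ F x) (h1 : ∀ x, F x ≤ K) (W : ℝ) :
    Integrable (fun x => iF B W x * (om u s1 x * rr u x * et u s1 lam P rs x ^ 2 * F x)) := by
  refine int_of_le' (K := K) V.int ?_ ?_ ?_
  · exact (measurable_iF B W).mul ((((m_om H.hs).mul (m_rr u)).mul
      ((et_cd H).continuous.measurable.pow_const 2)).mul hF)
  · exact fun x => mul_nonneg (iF_nonneg _ _ _) (mul_nonneg (mul_nonneg (mul_nonneg (om0 _ _ _)
      (rr0 _ _)) (sq_nonneg _)) (h0 x))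
  intro x
  have hK : 0 ≤ K := (h0 x).trans (h1 x)
  have he : et u s1 lam P rs x ^ 2 ≤ Gw lam x ^ 2 := by
    obtain ⟨a, b⟩ := et_bd H x
    exact pow_le_pow_left₀ a b 2
  have a1 := iF_nonneg B W x
  have a2 := iF_le_one B W x
  have a3 := om0 u s1 x
  have a4 := om1 u s1 x
  have a5 := rr0 u x
  have a6 := rr1 H.hs x
  have a7 : 0 ≤ et u s1 lam P rs x ^ 2 := sq_nonneg _
  have a8 : 0 ≤ Gw lam x ^ 2 := sq_nonneg _
  calc iF B W x * (om u s1 x * rr u x * et u s1 lam P rs x ^ 2 * F x)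
      ≤ 1 * (1 * 1 * Gw lam x ^ 2 * K) := by
        have := h0 x
        have := h1 x
        gcongr
    _ = K * Gw lam x ^ 2 := by ring

lemma row6 (H : Cfg u B s1 e C L0 R1 lam ε T h P rs) (V : VolB Cv B lam) {W : ℝ} (hW : 1 ≤ W)
    (hWl : lam * W ≤ 1) :
    (∫ x, om u s1 x * qq u x * GG e C lam h rs x)
      ≤ ε * (102 / 100 * (∫ x, iF B W x * (om u s1 x * rr u x * et u s1 lam P rs x ^ 2 * qq u x))
        + Cv * W ^ 3 * ∑' b : B, Gw lam b ^ 2) := by
  have i1 : Integrable (fun x => om u s1 x * qq u x * GG e C lam h rs x) := by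
    apply int_GF H V ((m_om H.hs).mul (m_qq H.hs))
    · exact fun x => mul_nonneg (om0 _ _ _) (qq0 H.hs _)
    · intro x
      exact mul_le_one₀ (om1 _ _ _) (qq0 H.hs _) (qq1 u x)
  have i2 := int_et H V (m_qq H.hs) (qq0 H.hs) (qq1 u) W
  have i3 := int_nF V W (B := B)
  have hε := H.ε_pos
  have h1 : (∫ x, om u s1 x * qq u x * GG e C lam h rs x)
      ≤ ∫ x, (ε * (102 / 100) * (iF B W x * (om u s1 x * rr u x * et u s1 lam P rs x ^ 2 * qq u x))
        + ε * (nF B W x * Gw lam x ^ 2)) := by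
    apply integral_mono i1 ((i2.const_mul _).add (i3.const_mul _))
    intro x
    show om u s1 x * qq u x * GG e C lam h rs x ≤ ε * (102 / 100) * (iF B W x *
      (om u s1 x * rr u x * et u s1 lam P rs x ^ 2 * qq u x)) + ε * (nF B W x * Gw lam x ^ 2)
    have hG : 0 ≤ Gw lam x ^ 2 := sq_nonneg _
    have hom := om0 u s1 x
    have hom1 := om1 u s1 x
    have hg := GG_nonneg H x
    have hr := rr0 u x
    have hn := nF_nonneg B W x
    have hi := iF_nonneg B W x
    have hq := qq0 H.hs x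
    have hq1 := qq1 u x
    by_cases hx : |phi u x| < s1 + 9
    swap
    · rw [om_zero (not_lt.mp hx)]
      have := mul_nonneg hε.le (mul_nonneg hn hG)
      simpa using this
    have h1 := GG_le_P H x
    have h2 := et2_slab H (le_of_lt hx)
    have hoq : 0 ≤ om u s1 x * qq u x := mul_nonneg hom hq
    have hoq1 : om u s1 x * qq u x ≤ 1 := mul_le_one₀ hom1 hq hq1
    have hp0 : 0 ≤ P (rs x) ^ 2 * Gw lam x ^ 2 := by positivity
    by_cases hf : Far B W x
    · have h3 := rr_ge H (by linarith) (Far_mono hW hf)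
      rw [iF_one hf, h2, one_mul]
      have h4 := mul_le_mul_of_nonneg_left h1 hoq
      have h5 := mul_nonneg hε.le (mul_nonneg hn hG)
      have h6 : 0 ≤ om u s1 x * qq u x * (ε * (P (rs x) ^ 2 * Gw lam x ^ 2)) := by positivity
      have h7 : om u s1 x * qq u x * (ε * (P (rs x) ^ 2 * Gw lam x ^ 2))
          ≤ ε * (102 / 100) * (om u s1 x * rr u x * (P (rs x) ^ 2 * Gw lam x ^ 2) * qq u x) := by
        nlinarith
      linarith
    · rw [nF_one hf, one_mul]
      have h4 := GG_le_ε H x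
      have h5 : om u s1 x * qq u x * GG e C lam h rs x ≤ 1 * (ε * Gw lam x ^ 2) :=
        mul_le_mul hoq1 h4 hg (by norm_num)
      have h6 : 0 ≤ ε * (102 / 100) * (iF B W x *
        (om u s1 x * rr u x * et u s1 lam P rs x ^ 2 * qq u x)) := by positivity
      linarith
  rw [integral_add (i2.const_mul _) (i3.const_mul _), integral_const_mul, integral_const_mul] at h1
  have h2 := V.le W hW hWl
  have h3 := mul_le_mul_of_nonneg_left h2 hε.le
  linarith

end rows

end Vale.Agent.P134.H967
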