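import Vale.Agent.P134.H967.Rows2

/-! Assembly of `StKEY`, part 4: rows 7, 8 and the summary. -/

set_option linter.all false

namespace Vale.Agent.P134.H967

open Vale.Agent.P134 Vale.Agent.P134.SM Vale.Agent.P134.LI Vale.Agent.P134.ASM
open MeasureTheory Filter Topology

section rows

variable {u : R3 → ℝ} {B : Set R3} {s1 e C L0 R1 lam ε T : ℝ} {h P : ℝ → ℝ} {rs : R3 → ℝ}
variable {Cv : ℝ}

/-! ### Row 7 -/

lemma wn_phi_le (hu : HS u) (x : R3) : gs (phi u) x ≤ wn (phi u) x := by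
  have h1 := wn_sq (phi u) x
  have h2 := wn_nonneg (phi u) x
  have h3 := rr1 hu x
  have e1 : rr u x = wn (phi u) x := rfl
  rw [e1] at h3
  nlinarith

open Classical in
lemma row7 (H : Cfg u B s1 e C L0 R1 lam ε T h P rs) (V : VolB Cv B lam) :
    (∫ x, wS s1 (phi u x) * (gs (phi u) x * GG e C lam h rs x))
      ≤ ∫ x, (if |phi u x| < s1 then 1 else 0) *
        (wn (phi u) x * h ((1 + e) * chd (phi u) B (s1 + 10) (2 * L0) 2 T x + C) *
          Gw lam x ^ 2) := by
  have he := H.e_pos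
  have hC := H.C_ge
  have hcd0 : ∀ x, 0 ≤ (1 + e) * chd (phi u) B (s1 + 10) (2 * L0) 2 T x + C := by
    intro x
    have := H.cd_bd x
    positivity
  apply integral_mono_of_nonneg
  · exact Eventually.of_forall fun x => mul_nonneg (wS_nonneg _ _)
      (mul_nonneg (gs_nonneg _ _) (GG_nonneg H x))
  · refine int_of_le' (K := h 0) V.int ?_ ?_ ?_
    · apply Measurable.mul
      · apply Measurable.ite _ measurable_const measurable_const
        apply IsOpen.measurableSet
        exact isOpen_lt (phi_cd H.hs).continuous.abs continuous_const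
      · apply Measurable.mul _ ((m_Gw lam).pow_const 2)
        apply Measurable.mul (measurable_wn _)
        exact H.h_cd.continuous.measurable.comp ((H.cd_meas.const_mul _).add_const _)
    · intro x
      apply mul_nonneg (by split_ifs <;> norm_num)
      exact mul_nonneg (mul_nonneg (wn_nonneg _ _) (H.h_nonneg _)) (sq_nonneg _)
    · intro x
      have h1 : h ((1 + e) * chd (phi u) B (s1 + 10) (2 * L0) 2 T x + C) ≤ h 0 :=
        H.h_anti (Set.mem_Ici.mpr le_rfl) (Set.mem_Ici.mpr (hcd0 x)) (hcd0 x)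
      have h2 := H.h_nonneg ((1 + e) * chd (phi u) B (s1 + 10) (2 * L0) 2 T x + C)
      have h3 := wn_nonneg (phi u) x
      have h4 : wn (phi u) x ≤ 1 := rr1 H.hs x
      have h5 : 0 ≤ Gw lam x ^ 2 := sq_nonneg _
      have h6 : 0 ≤ h 0 := H.h_nonneg 0
      have h7 : (0:ℝ) ≤ (if |phi u x| < s1 then 1 else 0) := by split_ifs <;> norm_num
      have h8 : (if |phi u x| < s1 then (1:ℝ) else 0) ≤ 1 := by split_ifs <;> norm_num
      calc (if |phi u x| < s1 then (1:ℝ) else 0) *
            (wn (phi u) x * h ((1 + e) * chd (phi u) B (s1 + 10) (2 * L0) 2 T x + C) *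
              Gw lam x ^ 2) ≤ 1 * (1 * h 0 * Gw lam x ^ 2) := by gcongr
        _ = h 0 * Gw lam x ^ 2 := by ring
  · refine Eventually.of_forall fun x => ?_
    show wS s1 (phi u x) * (gs (phi u) x * GG e C lam h rs x) ≤
      (if |phi u x| < s1 then 1 else 0) *
        (wn (phi u) x * h ((1 + e) * chd (phi u) B (s1 + 10) (2 * L0) 2 T x + C) *
          Gw lam x ^ 2)
    by_cases hx : |phi u x| < s1
    · rw [if_pos hx]
      have h1 := abs_le.mp (H.rs_chd x (by linarith))
      have h2 : gg' e C h rs x ≤ h ((1 + e) * chd (phi u) B (s1 + 10) (2 * L0) 2 T x + C) := by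
        apply H.h_anti (Set.mem_Ici.mpr (hcd0 x)) (Set.mem_Ici.mpr (arg_nonneg H x))
        have : chd (phi u) B (s1 + 10) (2 * L0) 2 T x ≤ rs x + 1 := by linarith [h1.1]
        have := mul_le_mul_of_nonneg_left this (by linarith : 0 ≤ 1 + e)
        linarith
      have h3 : GG e C lam h rs x
          ≤ h ((1 + e) * chd (phi u) B (s1 + 10) (2 * L0) 2 T x + C) * Gw lam x ^ 2 :=
        mul_le_mul_of_nonneg_right h2 (sq_nonneg _)
      have h4 := wn_phi_le H.hs x
      have h5 : gs (phi u) x * GG e C lam h rs x ≤ wn (phi u) x *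
          (h ((1 + e) * chd (phi u) B (s1 + 10) (2 * L0) 2 T x + C) * Gw lam x ^ 2) :=
        mul_le_mul h4 h3 (GG_nonneg H x) (wn_nonneg _ _)
      have h6 := wS_nonneg s1 (phi u x)
      have h7 := wS_le_one s1 (phi u x)
      have h8 : 0 ≤ gs (phi u) x * GG e C lam h rs x := mul_nonneg (gs_nonneg _ _) (GG_nonneg H x)
      calc wS s1 (phi u x) * (gs (phi u) x * GG e C lam h rs x)
          ≤ 1 * (gs (phi u) x * GG e C lam h rs x) := mul_le_mul_of_nonneg_right h7 h8
        _ ≤ 1 * (wn (phi u) x *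
          (h ((1 + e) * chd (phi u) B (s1 + 10) (2 * L0) 2 T x + C) * Gw lam x ^ 2)) := by
            linarith
        _ = _ := by ring
    · rw [if_neg hx, wS_zero (not_lt.mp hx)]
      simp

/-! ### Row 8 -/

lemma Ph_nonneg (H : Cfg u B s1 e C L0 R1 lam ε T h P rs) (t : ℝ) : 0 ≤ Ph h R1 t := by
  unfold Ph
  rcases le_total t R1 with ht | ht
  · apply intervalIntegral.integral_nonneg ht
    intro r hr
    exact mul_nonneg (by linarith [hr.1]) (H.h_nonneg r)
  · rw [intervalIntegral.integral_symm, ← intervalIntegral.integral_neg]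
    apply intervalIntegral.integral_nonneg ht
    intro r hr
    rw [H.h_zero r hr.1]; simp

lemma lap_sq (hu : HS u) (x : R3) : lap (phi u) x ^ 2 ≤ 2 * qq u x ^ 2 := by
  rw [lap_phi hu.toSol hu.lt x]
  have h1 : Real.sqrt 2 ^ 2 = 2 := Real.sq_sqrt (by norm_num)
  have h2 : u x ^ 2 ≤ 1 := by
    rw [← sq_abs]
    have := (hu.lt x).le
    have := abs_nonneg (u x)
    nlinarith
  have h3 : 0 ≤ qq u x ^ 2 := sq_nonneg _
  calc (-(Real.sqrt 2 * u x * qq u x)) ^ 2 = Real.sqrt 2 ^ 2 * u x ^ 2 * qq u x ^ 2 := by ring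
    _ = 2 * u x ^ 2 * qq u x ^ 2 := by rw [h1]
    _ ≤ 2 * 1 * qq u x ^ 2 := by gcongr
    _ = _ := by ring

open Classical in
lemma row8 (H : Cfg u B s1 e C L0 R1 lam ε T h P rs) (V : VolB Cv B lam) {C0 CH δ cq W : ℝ}
    (hC0 : 0 < C0) (hCH : 0 < CH) (hhs : ∀ x, SM.hs (phi u) x ≤ CH * qq u x)
    (hgs : ∀ x, gs (qq u) x ≤ CH * qq u x ^ 2)
    (hδ : ∀ x, |phi u x| ≤ s1 + 10 → Far B 1 x → qq u x ≤ δ)
    (hcqn : 0 ≤ cq) (hcq : C0 * (2 + CH / 4) * δ ≤ cq) (hWL : W ≤ L0) :
    (∫ x, (if |phi u x| < s1 + 8 ∧ Far B L0 x then 1 else 0) *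
          ((7 / 2 * SM.hs (phi u) x + C0 * (lap (phi u) x ^ 2
            + ∑ i, (∑ j, pd i (pd j (phi u)) x * pd j (phi u) x) ^ 2)) *
            Ph h R1 (max 0 ((1 - e) * chd (phi u) B (s1 + 10) (2 * L0) 2 T x - C)) *
              Gw lam x ^ 2))
      ≤ 478 / 1000 * (∫ x, iF B W x * (om u s1 x * rr u x * et u s1 lam P rs x ^ 2 *
            SM.hs (phi u) x))
        + cq * (∫ x, iF B W x * (om u s1 x * rr u x * et u s1 lam P rs x ^ 2 * qq u x)) := by
  have i1 := int_et H V (measurable_hs (phi u)) (hs_nonneg _) (K := CH)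
    (fun x => (hhs x).trans (by have := qq1 u x; nlinarith)) W
  have i2 := int_et H V (m_qq H.hs) (qq0 H.hs) (qq1 u) W
  rw [← integral_const_mul, ← integral_const_mul, ← integral_add (i1.const_mul _) (i2.const_mul _)]
  have hF0 : ∀ x, 0 ≤ 7 / 2 * SM.hs (phi u) x + C0 * (lap (phi u) x ^ 2
            + ∑ i, (∑ j, pd i (pd j (phi u)) x * pd j (phi u) x) ^ 2) := by
    intro x
    have h1 := hs_nonneg (phi u) x
    have h2 : 0 ≤ ∑ i : Fin 3, (∑ j, pd i (pd j (phi u)) x * pd j (phi u) x) ^ 2 :=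
      Finset.sum_nonneg fun _ _ => sq_nonneg _
    positivity
  apply integral_mono_of_nonneg
  · refine Eventually.of_forall fun x => ?_
    apply mul_nonneg (by split_ifs <;> norm_num)
    exact mul_nonneg (mul_nonneg (hF0 x) (Ph_nonneg H _)) (sq_nonneg _)
  · exact (i1.const_mul _).add (i2.const_mul _)
  · refine Eventually.of_forall fun x => ?_
    show (if |phi u x| < s1 + 8 ∧ Far B L0 x then 1 else 0) *
          ((7 / 2 * SM.hs (phi u) x + C0 * (lap (phi u) x ^ 2
            + ∑ i, (∑ j, pd i (pd j (phi u)) x * pd j (phi u) x) ^ 2)) *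
            Ph h R1 (max 0 ((1 - e) * chd (phi u) B (s1 + 10) (2 * L0) 2 T x - C)) *
              Gw lam x ^ 2)
      ≤ 478 / 1000 * (iF B W x * (om u s1 x * rr u x * et u s1 lam P rs x ^ 2 *
            SM.hs (phi u) x))
        + cq * (iF B W x * (om u s1 x * rr u x * et u s1 lam P rs x ^ 2 * qq u x))
    have hcq0 : 0 ≤ iF B W x * (om u s1 x * rr u x * et u s1 lam P rs x ^ 2 * qq u x) :=
      mul_nonneg (iF_nonneg _ _ _) (mul_nonneg (mul_nonneg (mul_nonneg (om0 _ _ _)
        (rr0 _ _)) (sq_nonneg _)) (qq0 H.hs x))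
    by_cases hx : |phi u x| < s1 + 8 ∧ Far B L0 x
    swap
    · rw [if_neg hx, zero_mul]
      by_cases hz : iF B W x = 0
      · rw [hz]; simp
      have h1 : 0 ≤ iF B W x * (om u s1 x * rr u x * et u s1 lam P rs x ^ 2 * SM.hs (phi u) x) :=
        mul_nonneg (iF_nonneg _ _ _) (mul_nonneg (mul_nonneg (mul_nonneg (om0 _ _ _)
          (rr0 _ _)) (sq_nonneg _)) (hs_nonneg _ x))
      have := mul_nonneg hcqn hcq0
      linarith
    rw [if_pos hx, one_mul]
    have hL := H.L_ge
    have hf1 : Far B 1 x := Far_mono hL hx.2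
    have hrr := rr_ge H (by linarith [hx.1]) hf1
    have hq := hδ x (by linarith [hx.1]) hf1
    have hq0 := qq0 H.hs x
    have h1 := abs_le.mp (H.rs_chd x (by linarith [hx.1]))
    have h2 := H.Ph_le (rs x) (chd (phi u) B (s1 + 10) (2 * L0) 2 T x) (H.rs_nonneg x)
      (by linarith [h1.2])
    have e1 : ∑ i, (∑ j, pd i (pd j (phi u)) x * pd j (phi u) x) ^ 2 = gs (qq u) x / 4 :=
      (stALG u H.hs).2.2.2.2.2.1 x
    have h3 := lap_sq H.hs x
    have h4 := hgs x
    have h5 := hF0 x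
    have hom : om u s1 x = 1 := wS_one (by linarith [hx.1])
    rw [iF_one (Far_mono hWL hx.2), hom, et2_slab H (by linarith [hx.1])]
    rw [e1] at h5 ⊢
    have hhs0 := hs_nonneg (phi u) x
    have hpg : 0 ≤ P (rs x) ^ 2 * Gw lam x ^ 2 := by positivity
    have h6 : (7 / 2 * SM.hs (phi u) x + C0 * (lap (phi u) x ^ 2 + gs (qq u) x / 4)) *
            Ph h R1 (max 0 ((1 - e) * chd (phi u) B (s1 + 10) (2 * L0) 2 T x - C)) *
              Gw lam x ^ 2
        ≤ (7 / 2 * SM.hs (phi u) x + C0 * (lap (phi u) x ^ 2 + gs (qq u) x / 4)) *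
            (135 / 1000 * P (rs x) ^ 2) * Gw lam x ^ 2 := by
      apply mul_le_mul_of_nonneg_right _ (sq_nonneg _)
      exact mul_le_mul_of_nonneg_left h2 h5
    refine h6.trans ?_
    have h7 : lap (phi u) x ^ 2 + gs (qq u) x / 4 ≤ (2 + CH / 4) * qq u x ^ 2 := by
      nlinarith
    have h8 : C0 * (lap (phi u) x ^ 2 + gs (qq u) x / 4) ≤ cq * qq u x := by
      calc C0 * (lap (phi u) x ^ 2 + gs (qq u) x / 4) ≤ C0 * ((2 + CH / 4) * qq u x ^ 2) := by
            gcongr
        _ = (C0 * (2 + CH / 4) * qq u x) * qq u x := by ring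
        _ ≤ (C0 * (2 + CH / 4) * δ) * qq u x := by
            gcongr
        _ ≤ cq * qq u x := mul_le_mul_of_nonneg_right hcq hq0
    have hcq' : 0 ≤ cq * qq u x := mul_nonneg hcqn hq0
    have h9 : (7 / 2 * SM.hs (phi u) x + C0 * (lap (phi u) x ^ 2 + gs (qq u) x / 4)) *
          (135 / 1000 * P (rs x) ^ 2) * Gw lam x ^ 2
        ≤ (7 / 2 * SM.hs (phi u) x + cq * qq u x) * (135 / 1000) *
          (P (rs x) ^ 2 * Gw lam x ^ 2) := by
      have : (7 / 2 * SM.hs (phi u) x + C0 * (lap (phi u) x ^ 2 + gs (qq u) x / 4))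
        ≤ (7 / 2 * SM.hs (phi u) x + cq * qq u x) := by linarith
      have h10 := mul_le_mul_of_nonneg_right this hpg
      nlinarith
    refine h9.trans ?_
    have h11 : (7 / 2 * SM.hs (phi u) x + cq * qq u x) * (135 / 1000)
        ≤ (478 / 1000 * SM.hs (phi u) x + cq * qq u x) * rr u x := by
      have a1 : 0 ≤ 478 / 1000 * SM.hs (phi u) x + cq * qq u x := by positivity
      nlinarith [mul_le_mul_of_nonneg_left hrr a1]
    have h12 := mul_le_mul_of_nonneg_right h11 hpg
    refine h12.trans (le_of_eq ?_)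
    ring

end rows

end Vale.Agent.P134.H967
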