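import Vale.Agent.P134.H967.StKey
import Vale.Agent.P134.PX.FinalASM
import Vale.Agent.P134.H586.StGw

/-! `StSLAB → StPROF → StS3`. -/

set_option linter.all false

namespace Vale.Agent.P134.H967

open Vale.Agent.P134 Vale.Agent.P134.SM Vale.Agent.P134.LI Vale.Agent.P134.ASM

theorem stKEY (hS : StSLAB) (hP : StPROF) : StKEY :=
  key_of (slab2 hS) PX.FIALA_ASM hP H988.stMET (VOL_of H586.stGw) stGOOD stHAR

theorem stS3 (hS : StSLAB) (hP : StPROF) : StS3 := s3_of_key (stKEY hS hP)

end Vale.Agent.P134.H967
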