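import Vale.Agent.P134.H967.Rows3
import Vale.Agent.P134.H967.Key
import Vale.Agent.P134.H967.Good

/-! Assembly of `StKEY`. -/

set_option linter.all false

namespace Vale.Agent.P134.H967

open Vale.Agent.P134 Vale.Agent.P134.SM Vale.Agent.P134.LI Vale.Agent.P134.ASM
open MeasureTheory Filter Topology

/-- final arithmetic -/
lemma fin_arith {E Y X9 Q0 X1' X1 X8 O Jq Jh SS c1 c2 C Cv KV W3 ε lam sg K' κ J PH : ℝ}
    (hε : 0 < ε) (hε1 : ε ≤ 1 / 100000) (hl : lam ≤ ε) (hY : 0 ≤ Y) (hO : 0 ≤ O)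
    (hS : 0 ≤ SS) (hJq : 0 ≤ Jq) (hJh : 0 ≤ Jh) (hQ0 : 0 ≤ Q0) (hX1 : 0 ≤ X1) (hC : 0 ≤ C)
    (hCv : 0 ≤ Cv) (hKV : 0 ≤ KV) (hW3 : 0 ≤ W3) (hsg0 : 0 ≤ sg) (hsg1 : sg ≤ 1)
    (r1 : E ≤ 1001 / 1000 * (1 + 10 * (1 / 1000) + ε) * Y + ε * KV * SS)
    (r2 : Y ≤ X9 + Q0)
    (r34 : X9 ≤ 100091 / 100000 * X1' + 10 * (3 / 2 * Q0 + (2 * lam + 1001 / 1000 * ε) * O
      + ε * KV * SS))
    (r5 : O ≤ 102 / 100 * Y + ε * Cv * SS)
    (r6 : Q0 ≤ ε * (102 / 100 * Jq + Cv * W3 * SS))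
    (r7 : X1' ≤ X1)
    (r8 : X1 ≤ C * PH * SS + X8) (hPH : PH ≤ ε)
    (r9 : X8 ≤ 478 / 1000 * Jh + c2 / 4 * Jq)
    (hc2 : 17 * ε ≤ c2 / 4)
    (hK' : κ * K' ≤ ε * SS)
    (hJ : J = Jh / 2 + c2 * Jq)
    (r0 : c1 / 10000 * SS + sg * J ≤ (1 + 1 / 1000) * sg * E + κ * K') :
    c1 / 10000 * SS ≤ ε * (2 * C + 17 * (Cv * W3) + 14 * (KV + Cv) + 1) * SS := by
  have a1 : (2 * lam + 1001 / 1000 * ε) * O ≤ 3001 / 1000 * ε * O :=
    mul_le_mul_of_nonneg_right (by linarith) hO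
  have a2 : 3001 / 1000 * ε * O ≤ 3001 / 1000 * ε * (102 / 100 * Y + ε * Cv * SS) :=
    mul_le_mul_of_nonneg_left r5 (by positivity)
  have a3 : ε * Y ≤ 1 / 100000 * Y := mul_le_mul_of_nonneg_right hε1 hY
  have hcs : 0 ≤ Cv * SS := mul_nonneg hCv hS
  have hks : 0 ≤ KV * SS := mul_nonneg hKV hS
  have hws : 0 ≤ Cv * W3 * SS := by positivity
  have a4 : ε * (ε * (Cv * SS)) ≤ 1 / 100000 * (ε * (Cv * SS)) :=
    mul_le_mul_of_nonneg_right hε1 (by positivity)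
  have hεcs : 0 ≤ ε * (Cv * SS) := by positivity
  have hεks : 0 ≤ ε * (KV * SS) := by positivity
  have hεws : 0 ≤ ε * (Cv * W3 * SS) := by positivity
  have hCS : 0 ≤ C * SS := by positivity
  have b1 : C * PH * SS ≤ ε * (C * SS) := by
    have := mul_le_mul_of_nonneg_left hPH hCS
    linarith
  -- bound of Y
  have b2 : Y ≤ 10013 / 10000 * X1 + 161 / 10 * Q0 + 11 * (ε * (KV * SS) + ε * (Cv * SS)) := by
    linarith
  have b3 : E ≤ 10111 / 10000 * Y + ε * (KV * SS) := by linarith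
  have b4 : 1001 / 1000 * E ≤ 10136 / 10000 * X1 + 164 / 10 * Q0
      + 14 * (ε * (KV * SS) + ε * (Cv * SS)) := by linarith
  have hεq : ε * Jq * 17 ≤ c2 / 4 * Jq := by
    have := mul_le_mul_of_nonneg_right hc2 hJq
    linarith
  have hεC : 0 ≤ ε * (C * SS) := by positivity
  have hc20 : 0 ≤ c2 * Jq := by
    have : 0 ≤ c2 := by linarith
    positivity
  have b5 : 1001 / 1000 * E - J ≤ ε * (2 * C + 17 * (Cv * W3) + 14 * (KV + Cv)) * SS := by
    rw [hJ]
    linarith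
  have b6 : 0 ≤ ε * (2 * C + 17 * (Cv * W3) + 14 * (KV + Cv)) * SS := by positivity
  have b7 : sg * (1001 / 1000 * E - J) ≤ ε * (2 * C + 17 * (Cv * W3) + 14 * (KV + Cv)) * SS := by
    calc sg * (1001 / 1000 * E - J) ≤ sg * (ε * (2 * C + 17 * (Cv * W3) + 14 * (KV + Cv)) * SS) :=
          mul_le_mul_of_nonneg_left b5 hsg0
      _ ≤ 1 * (ε * (2 * C + 17 * (Cv * W3) + 14 * (KV + Cv)) * SS) :=
          mul_le_mul_of_nonneg_right hsg1 b6
      _ = _ := one_mul _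
  linarith

lemma one_le_int_wS {s : ℝ} (hs : 3 ≤ s) : 1 ≤ ∫ t, wS s t := by
  have hcs : HasCompactSupport (wS s) := by
    apply HasCompactSupport.of_support_subset_isCompact (isCompact_Icc (a := -s) (b := s))
    intro t ht
    by_contra hcon
    apply ht
    apply wS_zero
    by_contra h2
    apply hcon
    have := abs_le.mp (not_le.mp h2).le
    exact ⟨this.1, this.2⟩
  have hi : Integrable (wS s) := (wS_continuous s).integrable_of_hasCompactSupport hcs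
  have h1 : (∫ t in Set.Icc (0:ℝ) 1, (1:ℝ)) = 1 := by simp
  have h2 : (∫ t in Set.Icc (0:ℝ) 1, (1:ℝ)) ≤ ∫ t in Set.Icc (0:ℝ) 1, wS s t := by
    apply setIntegral_mono_on (by simp) hi.integrableOn measurableSet_Icc
    intro t ht
    rw [wS_one]
    rw [abs_of_nonneg ht.1]
    linarith [ht.2]
  have h3 : (∫ t in Set.Icc (0:ℝ) 1, wS s t) ≤ ∫ t, wS s t :=
    setIntegral_le_integral hi (Eventually.of_forall fun t => wS_nonneg s t)
  linarith

lemma sig0_le : 0 ≤ sig0 ∧ sig0 ≤ 1 := by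
  unfold sig0
  have h1 : Real.sqrt 2 ≤ 3 / 2 := by
    rw [Real.sqrt_le_left (by norm_num)]; norm_num
  have h2 := Real.sqrt_nonneg 2
  constructor
  · positivity
  · linarith

/-- the core estimate -/
theorem key_core {u : R3 → ℝ} {B : Set R3} {C L0 R1 lam ε T : ℝ} {h P : ℝ → ℝ} {rs : R3 → ℝ}
    {Cv CH C0 c1 c2 κ W : ℝ}
    (H : Cfg u B 10000 (1 / 1000) C L0 R1 lam ε T h P rs) (V : VolB Cv B lam)
    (hCH : 0 < CH) (hC0 : 0 < C0) (hc2 : 0 < c2)
    (hhs : ∀ x, SM.hs (phi u) x ≤ CH * qq u x) (hgs : ∀ x, gs (qq u) x ≤ CH * qq u x ^ 2)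
    (hδ : ∀ x, |phi u x| ≤ 10000 + 10 → Far B 1 x → qq u x ≤ c2 / 4 / (C0 * (2 + CH / 4)))
    (hW4 : 4 ≤ W) (hL2 : 2 * W + 1 ≤ L0) (hε2 : ε ≤ c2 / 68) (p13 : Ph h R1 0 ≤ ε)
    (hκ : κ = ε / (Cv * (4 * R1 + 2 + 2 * L0) ^ 3))
    (r8 : (∫ x, (if |phi u x| < 10000 then 1 else 0) *
      (wn (phi u) x * h ((1 + 1 / 1000) * chd (phi u) B (10000 + 10) (2 * L0) 2 T x + C) *
        Gw lam x ^ 2))
    ≤ C * Ph h R1 0 * ∑' b : B, Gw lam b ^ 2
      + ∫ x, (open Classical in if |phi u x| < 10000 + 8 ∧ Far B L0 x then 1 else 0) *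
          ((7 / 2 * SM.hs (phi u) x + C0 * (lap (phi u) x ^ 2
            + ∑ i, (∑ j, pd i (pd j (phi u)) x * pd j (phi u) x) ^ 2)) *
            Ph h R1 (max 0 ((1 - 1 / 1000) * chd (phi u) B (10000 + 10) (2 * L0) 2 T x - C)) *
              Gw lam x ^ 2))
    (r0 : c1 / 10000 * ∑' b : B, Gw lam b ^ 2
      + sig0 * (∫ x, iF B (2 * W) x * (wS (10000 + 9) (phi u x) * rr u x *
        et u 10000 lam P rs x ^ 2 * (SM.hs (phi u) x / 2 + c2 * qq u x)))
      ≤ (1 + 1 / 1000) * sig0 * (∫ x, wS (10000 + 9) (phi u x) * rr u x *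
          gs (et u 10000 lam P rs) x)
        + κ * ∫ x, wS (10000 + 9) (phi u x) * rr u x * et u 10000 lam P rs x ^ 2) :
    c1 / 10000 * ∑' b : B, Gw lam b ^ 2
      ≤ ε * (2 * C + 17 * (Cv * (2 * W) ^ 3) + 14 * (Cv * (2 * (6 + 2 * L0) ^ 3 + 1) + Cv) + 1) *
        ∑' b : B, Gw lam b ^ 2 := by
  have hu := H.hs
  have hε := H.ε_pos
  have hCv := V.pos
  have hR1 := H.R_ge
  have hlR := H.lam_R
  have hlam := H.lam_pos
  have hL0 := H.L_ge
  have hC := H.C_ge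
  have r1 := row1 H V
  have r2 := row2 H V
  have r34 := row34 H V
  have r5 := row5 H V
  have r6 := row6 H V (W := 2 * W) (by linarith) (by
    have : 2 * W ≤ 4 * R1 + 2 + 2 * L0 := by linarith
    have := mul_le_mul_of_nonneg_left this hlam.le
    linarith)
  have r7 := row7 H V
  have r9 := row8 H V (C0 := C0) (CH := CH) (δ := c2 / 4 / (C0 * (2 + CH / 4))) (cq := c2 / 4)
    (W := 2 * W) hC0 hCH hhs hgs hδ (by positivity) (le_of_eq (by field_simp)) (by linarith)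
  have i1 := int_et H V (measurable_hs (phi u)) (hs_nonneg _) (K := CH)
    (fun x => (hhs x).trans (by have := qq1 u x; nlinarith)) (2 * W)
  have i2 := int_et H V (m_qq hu) (qq0 hu) (qq1 u) (2 * W)
  have hJ : (∫ x, iF B (2 * W) x * (wS (10000 + 9) (phi u x) * rr u x *
        et u 10000 lam P rs x ^ 2 * (SM.hs (phi u) x / 2 + c2 * qq u x)))
      = (∫ x, iF B (2 * W) x * (om u 10000 x * rr u x * et u 10000 lam P rs x ^ 2 *
          SM.hs (phi u) x)) / 2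
        + c2 * (∫ x, iF B (2 * W) x * (om u 10000 x * rr u x * et u 10000 lam P rs x ^ 2 *
          qq u x)) := by
    rw [← integral_const_mul, ← integral_div, ← integral_add (i1.div_const _) (i2.const_mul _)]
    congr 1
    funext x
    unfold om
    ring
  have hK' : κ * (∫ x, wS (10000 + 9) (phi u x) * rr u x *
      et u 10000 lam P rs x ^ 2) ≤ ε * ∑' b : B, Gw lam b ^ 2 := by
    have h1 : (∫ x, wS (10000 + 9) (phi u x) * rr u x * et u 10000 lam P rs x ^ 2)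
        ≤ ∫ x, iS u 10000 R1 rs x * Gw lam x ^ 2 := by
      apply integral_mono_of_nonneg
      · exact Eventually.of_forall fun x => mul_nonneg (mul_nonneg (wS_nonneg _ _) (rr0 _ _))
          (sq_nonneg _)
      · exact int_iS H V
      · refine Eventually.of_forall fun x => ?_
        show om u 10000 x * rr u x * et u 10000 lam P rs x ^ 2 ≤ iS u 10000 R1 rs x * Gw lam x ^ 2
        have hG : 0 ≤ Gw lam x ^ 2 := sq_nonneg _
        by_cases hx : |phi u x| < 10000 + 9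
        swap
        · rw [om_zero (not_lt.mp hx)]
          have := mul_nonneg (iS_nonneg u 10000 R1 rs x) hG
          simpa using this
        by_cases hr4 : rs x < 4 * R1
        · have hiS : iS u 10000 R1 rs x = 1 := by unfold iS; rw [if_pos ⟨hx, hr4⟩]
          rw [hiS]
          obtain ⟨a, b⟩ := et_bd H x
          have c : et u 10000 lam P rs x ^ 2 ≤ Gw lam x ^ 2 := pow_le_pow_left₀ a b 2
          have a3 := om0 u 10000 x
          have a4 := om1 u 10000 x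
          have a5 := rr0 u x
          have a6 := rr1 hu x
          have a7 : om u 10000 x * rr u x ≤ 1 := mul_le_one₀ a4 a5 a6
          exact mul_le_mul a7 c (sq_nonneg _) (by norm_num)
        · rw [et2_slab H hx.le, H.P_zero _ (not_lt.mp hr4)]
          have := mul_nonneg (iS_nonneg u 10000 R1 rs x) hG
          simpa using this
    have h2 := IS_le H V
    have h3 := mul_le_mul_of_nonneg_left (h1.trans h2)
      (by positivity : 0 ≤ ε / (Cv * (4 * R1 + 2 + 2 * L0) ^ 3))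
    rw [hκ]
    refine h3.trans (le_of_eq ?_)
    field_simp
  exact fin_arith (c1 := c1) (c2 := c2) (C := C) (Cv := Cv)
    (KV := Cv * (2 * (6 + 2 * L0) ^ 3 + 1)) (W3 := (2 * W) ^ 3) (ε := ε) (lam := lam) (sg := sig0)
    hε H.ε_le H.lam_le
    (integral_nonneg fun x => mul_nonneg (mul_nonneg (om0 u 10000 x) (rr0 u x)) (GG_nonneg H x))
    (integral_nonneg fun x => mul_nonneg (om0 u 10000 x) (GG_nonneg H x))
    S_nonneg
    (integral_nonneg fun x => mul_nonneg (iF_nonneg B (2 * W) x) (mul_nonneg (mul_nonneg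
      (mul_nonneg (om0 u 10000 x) (rr0 u x)) (sq_nonneg (et u 10000 lam P rs x))) (qq0 hu x)))
    (integral_nonneg fun x => mul_nonneg (iF_nonneg B (2 * W) x) (mul_nonneg (mul_nonneg
      (mul_nonneg (om0 u 10000 x) (rr0 u x)) (sq_nonneg (et u 10000 lam P rs x)))
      (hs_nonneg (phi u) x)))
    (integral_nonneg fun x => mul_nonneg (mul_nonneg (om0 u 10000 x) (qq0 hu x)) (GG_nonneg H x))
    (integral_nonneg fun x => mul_nonneg (by split_ifs <;> norm_num) (mul_nonneg (mul_nonneg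
      (wn_nonneg _ _) (H.h_nonneg _)) (sq_nonneg _)))
    (by linarith) hCv.le
    (by positivity)
    (by positivity) sig0_le.1 sig0_le.2 r1 r2 r34 r5 r6 r7 r8 p13 r9 (by linarith) hK' hJ r0

theorem key_of (hS : StSLAB2) (hF : StFIALA) (hP : StPROF) (hM : StMET) (hV : StVOL)
    (hG : StGOOD) (hH : StHAR) : StKEY := by
  intro CX hCX
  obtain ⟨CH, hCH, har⟩ := hH
  obtain ⟨C0, hC0, fi⟩ := hF
  obtain ⟨Cv, hCv, vol⟩ := hV
  obtain ⟨δ0, c2, hδ0, hc2, slab⟩ := hS CX (1 / 1000) (10000 + 9) hCX (by norm_num) (by norm_num)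
  obtain ⟨e0, r1, L00, he0, hr1, hL00, fi⟩ := fi (1 / 1000) 10000 (by norm_num) (by norm_num)
    (by norm_num)
  obtain ⟨δg, hδg, good⟩ := hG (10000 + 12) r1 e0 (by norm_num) hr1 he0
  have hcK : 0 < C0 * (2 + CH / 4) := by positivity
  refine ⟨10000 + 12, min (min δ0 (1 / 100)) (min δg (c2 / 4 / (C0 * (2 + CH / 4)))),
    by norm_num, by positivity, fun c1 hc1 u hu hX B hB hq hb => ?_⟩
  by_contra hne
  have hne' : B.Nonempty := Set.nonempty_iff_ne_empty.mpr hne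
  obtain ⟨W0, hW0, slab⟩ := slab c1 hc1
  obtain ⟨W, hWdef⟩ : ∃ W, W = max W0 4 := ⟨_, rfl⟩
  have hW1 : W0 ≤ W := hWdef ▸ le_max_left _ _
  have hW4 : 4 ≤ W := hWdef ▸ le_max_right _ _
  obtain ⟨L0, hLdef⟩ : ∃ L0, L0 = max L00 (2 * W + 1) := ⟨_, rfl⟩
  have hL1 : L00 ≤ L0 := hLdef ▸ le_max_left _ _
  have hL2 : 2 * W + 1 ≤ L0 := hLdef ▸ le_max_right _ _
  obtain ⟨C, hC1, fi⟩ := fi L0 hL1
  have hp2 : ContDiff ℝ 2 (phi u) := phi_cd hu
  have hgp : ∀ x, gs (phi u) x ≤ 1 := (stALG u hu).2.1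
  have hqd : ∀ x, |phi u x| ≤ 10000 + 12 → Far B 1 x → qq u x ≤ δ0 ∧ qq u x ≤ 1 / 100 ∧
      qq u x ≤ δg ∧ qq u x ≤ c2 / 4 / (C0 * (2 + CH / 4)) := by
    intro x h1 h2
    have := hq x h1 h2
    exact ⟨this.trans ((min_le_left _ _).trans (min_le_left _ _)),
      this.trans ((min_le_left _ _).trans (min_le_right _ _)),
      this.trans ((min_le_right _ _).trans (min_le_left _ _)),
      this.trans ((min_le_right _ _).trans (min_le_right _ _))⟩
  have fi := fi (phi u) hp2 hgp ⟨CH, fun x _ => ((har u hu x).1).trans (by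
      have := qq1 u x
      nlinarith)⟩ B hB (fun x h1 h2 => good u hu x h1
        ((hqd x h1 (Far_mono (by linarith) h2)).2.2.1))
  -- ε
  have hKp : 0 < 2 * C + 17 * (Cv * (2 * W) ^ 3) + 14 * (Cv * (2 * (6 + 2 * L0) ^ 3 + 1) + Cv) + 1 := by
    have : 0 < L0 := by linarith
    positivity
  obtain ⟨K, hKdef⟩ : ∃ K, K = 2 * C + 17 * (Cv * (2 * W) ^ 3)
    + 14 * (Cv * (2 * (6 + 2 * L0) ^ 3 + 1) + Cv) + 1 := ⟨_, rfl⟩
  rw [← hKdef] at hKp
  obtain ⟨ε, hεdef⟩ : ∃ ε, ε = min (min (1 / 100000) (c2 / 68)) (c1 / 10000 / (2 * K)) := ⟨_, rfl⟩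
  have hε : 0 < ε := by rw [hεdef]; positivity
  have hε1 : ε ≤ 1 / 100000 := hεdef ▸ (min_le_left _ _).trans (min_le_left _ _)
  have hε2 : ε ≤ c2 / 68 := hεdef ▸ (min_le_left _ _).trans (min_le_right _ _)
  have hε3 : ε ≤ c1 / 10000 / (2 * K) := hεdef ▸ (min_le_right _ _)
  obtain ⟨R1, h, P, hR1, p1, p2, p3, p4, p5, p6, p7, p8, p9, p10, p11, p12, p13, p14⟩ :=
    hP (1 / 1000) C ε (by norm_num) le_rfl hC1 hε
  obtain ⟨Vr, hVr⟩ : ∃ Vr, Vr = 4 * R1 + 2 + 2 * L0 := ⟨_, rfl⟩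
  have hVr1 : 1 ≤ Vr := by rw [hVr]; linarith
  have hVr0 : 0 < Vr := by linarith
  have hT : (0:ℝ) < 10 * (R1 + C) := by linarith
  obtain ⟨lam0, hlam0, slab⟩ := slab W hW1 (ε / (Cv * Vr ^ 3)) (by positivity)
  obtain ⟨lam, hlamdef⟩ : ∃ lam, lam = min (min lam0 (e0 / R1)) (min (1 / Vr)
    (ε / (1001 * Vr ^ 3))) := ⟨_, rfl⟩
  have hlam : 0 < lam := by
    have : 0 < R1 := by linarith
    rw [hlamdef]; positivity
  have hl1 : lam ≤ lam0 := hlamdef ▸ (min_le_left _ _).trans (min_le_left _ _)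
  have hl2 : lam ≤ e0 / R1 := hlamdef ▸ (min_le_left _ _).trans (min_le_right _ _)
  have hl3 : lam ≤ 1 / Vr := hlamdef ▸ (min_le_right _ _).trans (min_le_left _ _)
  have hl4 : lam ≤ ε / (1001 * Vr ^ 3) := hlamdef ▸ (min_le_right _ _).trans (min_le_right _ _)
  have hVr3 : 1 ≤ Vr ^ 3 := one_le_pow₀ hVr1
  have hlR : lam * Vr ≤ 1 := by
    have := mul_le_mul_of_nonneg_right hl3 hVr0.le
    rwa [one_div, inv_mul_cancel₀ hVr0.ne'] at this
  have hlε' : lam * (1001 * Vr ^ 3) ≤ ε := by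
    rwa [le_div_iff₀ (by positivity)] at hl4
  have hlε : lam ≤ ε := by nlinarith
  have hl1' : lam ≤ 1 := by linarith
  have hlV : 1001 * lam ^ 2 * Vr ^ 3 ≤ ε := by
    have h1 : lam ^ 2 ≤ lam := by nlinarith
    calc 1001 * lam ^ 2 * Vr ^ 3 ≤ 1001 * lam * Vr ^ 3 := by gcongr
      _ = lam * (1001 * Vr ^ 3) := by ring
      _ ≤ ε := hlε'
  obtain ⟨m1, m2, m3, rs, m4, m5, m6, m7, m8, m9⟩ := hM (phi u) hp2 hgp B hB (10000 + 10) (2 * L0) 2
    (10 * (R1 + C)) (by norm_num) (by linarith) (by norm_num) hT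
  have H : Cfg u B 10000 (1 / 1000) C L0 R1 lam ε (10 * (R1 + C)) h P rs :=
    { hs := hu
      latt := hB
      s1_ge := le_rfl
      e_pos := by norm_num
      e_le := le_rfl
      C_ge := hC1
      L_ge := by linarith
      R_ge := hR1
      T_ge := le_rfl
      ε_pos := hε
      ε_le := hε1
      lam_pos := hlam
      lam_le := hlε
      lam_R := by rw [← hVr]; exact hlR
      lam_V := by rw [← hVr]; exact hlV
      q_le := fun x h1 h2 => (hqd x (by linarith) h2).2.1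
      h_cd := p1
      h_nonneg := p2
      h_anti := p3
      h_zero := p4
      h_deriv := p5
      P_cd := p6
      P_bd := p7
      P_one := p8
      P_zero := p9
      P_deriv := p10
      P_deriv2 := p11
      h_le_P := p12
      Ph_le := p14
      cd_meas := m1
      cd_bd := fun x => (m2 x).1
      cd_far := m3
      rs_cd := m4
      rs_nonneg := fun x => (m5 x).1
      rs_K := m6
      rs_gs := m7
      rs_chd := m8
      rs_zero := m9 }
  have V : VolB Cv B lam :=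
    { pos := hCv
      summ := (vol B hB 1 lam le_rfl hlam (by linarith)).1
      int := (vol B hB 1 lam le_rfl hlam (by linarith)).2.1
      le := fun R h1 h2 => (vol B hB R lam h1 hlam h2).2.2 }
  -- Σ > 0
  have hSpos : 0 < ∑' b : B, Gw lam b ^ 2 := by
    obtain ⟨b, hbB⟩ := hne'
    exact V.summ.tsum_pos (fun _ => sq_nonneg _) ⟨b, hbB⟩ (pow_pos (H586.Gw_pos lam b) 2)
  have r8 := fi h R1 p2 p3 hR1 p4 lam (10 * (R1 + C)) hlam (by
    rwa [le_div_iff₀ (by linarith)] at hl2) le_rfl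
  have r0 := slab u hu hX B hB
    (fun x h1 h2 => (hqd x (by linarith) (Far_mono (by linarith) h2)).1) hb lam hlam hl1
    (et u 10000 lam P rs) (et_cd H) (et_bd H) (gs_et_le H)
    (fun x h1 h2 => et_near H (by linarith) h1 h2)
    (wS (10000 + 9)) (wS_continuous _) (fun s => ⟨wS_nonneg _ _, wS_le_one _ _⟩)
    (fun s hs => wS_zero hs) (one_le_int_wS (by norm_num))
  have hfin := key_core (C0 := C0) (CH := CH) (c1 := c1) (c2 := c2) (W := W) H V hCH hC0 hc2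
    (fun x => (har u hu x).1) (fun x => (har u hu x).2.1)
    (fun x h1 h2 => (hqd x (by linarith) h2).2.2.2) hW4 hL2 hε2 p13 (by rw [hVr]) r8 r0
  rw [← hKdef] at hfin
  have h1 : ε * K < c1 / 10000 := by
    have h2 := mul_le_mul_of_nonneg_right hε3 hKp.le
    have h3 : c1 / 10000 / (2 * K) * K = c1 / 10000 / 2 := by field_simp
    rw [h3] at h2
    linarith
  have h2 := mul_lt_mul_of_pos_right h1 hSpos
  linarith

end Vale.Agent.P134.H967
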